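import Vale.Agent.P358.Channel
import Mathlib.Analysis.Convex.Deriv
import Mathlib.Analysis.Calculus.LocalExtr.Basic
import Mathlib.Analysis.SpecialFunctions.Sqrt

/-!
# The scalar optimisation
-/

namespace Vale.Agent.P358

open Real Set

noncomputable section

/-- Probability of output `c` for basis input `b`. -/
def trans (γ ν : ℝ) (c b : Fin 2) : ℝ :=
  ![1 - tOut γ ν ((b : ℕ) : ℝ), tOut γ ν ((b : ℕ) : ℝ)] c

/-- Reference output distribution. -/
def refDist (t : ℝ) : Fin 2 → ℝ := ![1 - t, t]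

/-- The objective in nats. -/
def objective (γ ν q : ℝ) : ℝ := binEntropy (tOut γ ν q) - gEnt γ ν q

lemma disc_eq (γ ν q : ℝ) : 1 - 4 * dOut γ ν q =
    (1 - 2 * tOut γ ν q) ^ 2 + 4 * (1 - γ) * q * (1 - q) := by
  simp only [dOut]; ring

lemma disc_eq' (γ ν q : ℝ) : 1 - 4 * dOut γ ν q =
    (1 - 4 * γ * ν * (1 - ν)) - 4 * (1 - γ) * γ * (q - ν) ^ 2 := by
  simp only [dOut, tOut]; ring

lemma outDet_eq (γ ν q : ℝ) : outDet γ ν (1 - q) q = dOut γ ν q := by
  simp only [outDet, outZero, outOne, dOut, tOut]; ring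

lemma pairEnt_one (D : ℝ) : pairEnt 1 D = binEntropy ((1 + √(1 - 4 * D)) / 2) := by
  rw [binEntropy_eq_negMulLog_add_negMulLog_one_sub, pairEnt, one_pow]
  congr 2
  ring

lemma gEnt_eq (γ ν q : ℝ) : gEnt γ ν q = binEntropy ((1 + √(1 - 4 * dOut γ ν q)) / 2) :=
  pairEnt_one _

lemma capValue_eq (γ ν : ℝ) :
    capValue γ ν = sSup ((fun q => objective γ ν q / Real.log 2) '' Icc 0 1) := by
  simp only [capValue, objective, gEnt_eq, disc_eq, tOut]

lemma gEnt_continuous (γ ν : ℝ) : Continuous (gEnt γ ν) := by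
  have : gEnt γ ν = fun q => binEntropy ((1 + √(1 - 4 * dOut γ ν q)) / 2) :=
    funext (gEnt_eq γ ν)
  rw [this]
  refine binEntropy_continuous.comp ?_
  simp only [dOut, tOut]
  fun_prop

lemma objective_continuous (γ ν : ℝ) : Continuous (objective γ ν) := by
  refine (binEntropy_continuous.comp ?_).sub (gEnt_continuous γ ν)
  show Continuous fun q => (1 - γ) * q + γ * ν
  fun_prop

lemma binEntropy_fold {s : ℝ} :
    binEntropy ((1 + |1 - 2 * s|) / 2) = binEntropy s := by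
  rcases le_total (2 * s) 1 with h | h
  · rw [abs_of_nonneg (by linarith), show (1 + (1 - 2 * s)) / 2 = 1 - s by ring, binEntropy_one_sub]
  · rw [abs_of_nonpos (by linarith), show (1 + -(1 - 2 * s)) / 2 = s by ring]

lemma tOut_mem {γ ν q : ℝ} (hγ : γ ∈ Icc (0 : ℝ) 1) (hν : ν ∈ Icc (0 : ℝ) 1)
    (hq : q ∈ Icc (0 : ℝ) 1) : tOut γ ν q ∈ Icc (0 : ℝ) 1 := by
  obtain ⟨a, b⟩ := hγ; obtain ⟨c, d⟩ := hν; obtain ⟨e, f⟩ := hq
  constructor <;> simp only [tOut] <;> nlinarith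

lemma dOut_nonneg {γ ν q : ℝ} (hγ : γ ∈ Icc (0 : ℝ) 1) (hν : ν ∈ Icc (0 : ℝ) 1)
    (hq : q ∈ Icc (0 : ℝ) 1) : 0 ≤ dOut γ ν q := by
  obtain ⟨a, b⟩ := hγ; obtain ⟨c, d⟩ := hν; obtain ⟨e, f⟩ := hq
  have h : dOut γ ν q = γ * ((1 - γ) * (q - ν) ^ 2 + ν * (1 - ν)) := by
    simp only [dOut, tOut]; ring
  rw [h]
  have : 0 ≤ 1 - γ := by linarith
  have : 0 ≤ 1 - ν := by linarith
  positivity

lemma objective_nonneg {γ ν q : ℝ} (hγ : γ ∈ Icc (0 : ℝ) 1) (hν : ν ∈ Icc (0 : ℝ) 1)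
    (hq : q ∈ Icc (0 : ℝ) 1) : 0 ≤ objective γ ν q := by
  rw [objective, sub_nonneg, gEnt_eq, ← binEntropy_fold (s := tOut γ ν q)]
  have h1 : |1 - 2 * tOut γ ν q| ≤ √(1 - 4 * dOut γ ν q) := by
    rw [← Real.sqrt_sq_eq_abs, disc_eq]
    refine Real.sqrt_le_sqrt ?_
    have : 0 ≤ 4 * (1 - γ) * q * (1 - q) :=
      mul_nonneg (mul_nonneg (by linarith [hγ.2]) hq.1) (by linarith [hq.2])
    linarith
  have h2 : √(1 - 4 * dOut γ ν q) ≤ 1 := by
    rw [Real.sqrt_le_one]; linarith [dOut_nonneg hγ hν hq]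
  have ha := abs_nonneg (1 - 2 * tOut γ ν q)
  exact binEntropy_strictAntiOn.antitoneOn
    ⟨by rw [inv_eq_one_div]; linarith, by linarith⟩
    ⟨by rw [inv_eq_one_div]; linarith, by linarith⟩ (by linarith)

lemma objective_zero (γ ν : ℝ) : objective γ ν 0 = 0 := by
  rw [objective, gEnt_eq, disc_eq]
  simp only [mul_zero, zero_mul, add_zero, Real.sqrt_sq_eq_abs, binEntropy_fold, sub_self]

lemma objective_one (γ ν : ℝ) : objective γ ν 1 = 0 := by
  rw [objective, gEnt_eq, disc_eq]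
  simp only [sub_self, mul_zero, add_zero, Real.sqrt_sq_eq_abs, binEntropy_fold]

lemma two_mul_le_log_sub {r : ℝ} (h0 : 0 ≤ r) (h1 : r < 1) :
    2 * r ≤ Real.log (1 + r) - Real.log (1 - r) := by
  have h := Real.hasSum_log_sub_log_of_abs_lt_one (x := r) (by rw [abs_of_nonneg h0]; exact h1)
  have := le_hasSum h 0 fun k _ => by positivity
  simpa using this

/-- Derivative of `gEnt`. -/
def gSlope (γ ν q : ℝ) : ℝ :=
  4 * (1 - γ) * γ * (q - ν) *
    (Real.log (1 + √(1 - 4 * dOut γ ν q)) - Real.log (1 - √(1 - 4 * dOut γ ν q))) /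
      (2 * √(1 - 4 * dOut γ ν q))

lemma outDet_pos {γ ν : ℝ} (hγ0 : 0 < γ) (hγ1 : γ < 1) (hν : ν ∈ Icc (0 : ℝ) 1) (u w : ℝ)
    (hu : 0 < u) (hw : 0 < w) : 0 < outDet γ ν u w := by
  have hpA : 0 < 1 - γ * ν := by nlinarith [hν.1, hν.2]
  have hrC : 0 < 1 - γ * (1 - ν) := by nlinarith [hν.1, hν.2]
  have e : outDet γ ν u w = (1 - γ * ν) * (γ * ν) * u ^ 2 +
      2 * (γ * (1 - ν) * (γ * ν)) * (u * w) +
        γ * (1 - ν) * (1 - γ * (1 - ν)) * w ^ 2 := by
    simp only [outDet, outZero, outOne]; ring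
  rw [e]
  have hν0 := hν.1
  have hν1 : 0 ≤ 1 - ν := by linarith [hν.2]
  rcases eq_or_lt_of_le hν0 with h | h
  · subst h; simp; positivity
  · positivity

lemma gEnt_convex {γ ν : ℝ} (hγ0 : 0 < γ) (hγ1 : γ < 1) (hν : ν ∈ Icc (0 : ℝ) 1) :
    ConvexOn ℝ (Icc 0 1) (gEnt γ ν) ∧
      ∀ q ∈ Ioo (0 : ℝ) 1, HasDerivAt (gEnt γ ν) (gSlope γ ν q) q := by
  set k := 4 * (1 - γ) * γ with hk
  set r0 := 1 - 4 * γ * ν * (1 - ν) with hr0
  set S : ℝ → ℝ := fun q => r0 - k * (q - ν) ^ 2 with hS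
  have hSd : ∀ q, 1 - 4 * dOut γ ν q = S q := fun q => disc_eq' γ ν q
  have hr01 : r0 ≤ 1 := by
    have : 0 ≤ 4 * γ * ν * (1 - ν) :=
      mul_nonneg (mul_nonneg (by linarith) hν.1) (by linarith [hν.2])
    linarith
  have hk0 : 0 ≤ k := by rw [hk]; exact mul_nonneg (by linarith) hγ0.le
  have hbd : ∀ q ∈ Ioo (0 : ℝ) 1, 0 < S q ∧ S q < 1 := by
    intro q hq
    rw [← hSd]
    constructor
    · rw [disc_eq]
      have : 0 < 4 * (1 - γ) * q * (1 - q) :=
        mul_pos (mul_pos (by linarith) hq.1) (by linarith [hq.2])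
      linarith [sq_nonneg (1 - 2 * tOut γ ν q)]
    · have := outDet_pos hγ0 hγ1 hν (1 - q) q (by linarith [hq.2]) hq.1
      rw [outDet_eq] at this
      linarith
  have hSder : ∀ q, HasDerivAt S (-(2 * k * (q - ν))) q := by
    intro q
    refine ((((hasDerivAt_id q).sub_const ν).pow 2).const_mul k).const_sub r0 |>.congr_deriv ?_
    simp; ring
  have hd1 : ∀ q ∈ Ioo (0 : ℝ) 1, HasDerivAt (gEnt γ ν) (gSlope γ ν q) q := by
    intro q hq
    obtain ⟨s0, s1⟩ := hbd q hq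
    have hr : 0 < √(S q) := Real.sqrt_pos.mpr s0
    have hr1 : √(S q) < 1 := by rw [Real.sqrt_lt' one_pos]; linarith
    have hp := (((hSder q).sqrt s0.ne').const_add 1).div_const 2
    have hb := (hasDerivAt_binEntropy (p := (1 + √(S q)) / 2) (by linarith) (by linarith)).comp q hp
    have he : gEnt γ ν = binEntropy ∘ fun q => (1 + √(S q)) / 2 := by
      funext q; rw [gEnt_eq, hSd]; rfl
    rw [he]
    refine hb.congr_deriv ?_
    rw [gSlope, hSd, ← hk, show 1 - (1 + √(S q)) / 2 = (1 - √(S q)) / 2 by ring,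
      Real.log_div (by linarith) two_ne_zero, Real.log_div (by linarith) two_ne_zero]
    field_simp
    ring
  refine ⟨?_, hd1⟩
  set D2 : ℝ → ℝ := fun q => k * (Real.log (1 + √(S q)) - Real.log (1 - √(S q))) / (2 * √(S q)) +
      k * (q - ν) * (-(k * (q - ν)) / √(S q)) *
        (1 / (√(S q) * (1 - S q)) - (Real.log (1 + √(S q)) - Real.log (1 - √(S q))) / (2 * S q))
    with hD2
  apply convexOn_of_hasDerivWithinAt2_nonneg (convex_Icc 0 1) (gEnt_continuous γ ν).continuousOn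
    (f' := gSlope γ ν) (f'' := D2)
  · intro q hq
    rw [interior_Icc] at hq
    exact (hd1 q hq).hasDerivWithinAt
  · intro q hq
    rw [interior_Icc] at hq
    obtain ⟨s0, s1⟩ := hbd q hq
    have hr : 0 < √(S q) := Real.sqrt_pos.mpr s0
    have hr1 : √(S q) < 1 := by rw [Real.sqrt_lt' one_pos]; linarith
    have hsq := (hSder q).sqrt s0.ne'
    have hl := ((hsq.const_add 1).log (by linarith : (1 : ℝ) + √(S q) ≠ 0)).sub
      ((hsq.const_sub 1).log (by linarith : (1 : ℝ) - √(S q) ≠ 0))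
    have hh := ((((hasDerivAt_id q).sub_const ν).const_mul k).mul hl).div (hsq.const_mul 2)
      (by positivity)
    have he : gSlope γ ν = fun q => k * (id q - ν) *
        (Real.log (1 + √(S q)) - Real.log (1 - √(S q))) / (2 * √(S q)) := by
      funext q; rw [gSlope, hSd, ← hk]; rfl
    rw [he]
    refine HasDerivAt.hasDerivWithinAt (hh.congr_deriv ?_)
    have h1 : 1 + √(S q) ≠ 0 := by linarith
    have h2 : 1 - √(S q) ≠ 0 := by linarith
    obtain ⟨r, hrdef⟩ : ∃ r, r = √(S q) := ⟨_, rfl⟩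
    have hrr : S q = r ^ 2 := by rw [hrdef, Real.sq_sqrt s0.le]
    have h3 : 1 - r ^ 2 ≠ 0 := by rw [← hrr]; linarith
    simp only [hD2, id, Pi.sub_apply, Pi.mul_apply]
    rw [← hrdef, hrr]
    rw [← hrdef] at h1 h2 hr
    field_simp
    ring
  · intro q hq
    rw [interior_Icc] at hq
    obtain ⟨s0, s1⟩ := hbd q hq
    obtain ⟨r, hrdef⟩ : ∃ r, r = √(S q) := ⟨_, rfl⟩
    have hr : 0 < r := hrdef ▸ Real.sqrt_pos.mpr s0
    have hrr : S q = r ^ 2 := by rw [hrdef, Real.sq_sqrt s0.le]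
    have hr1 : r < 1 := by
      rw [hrdef, Real.sqrt_lt' one_pos]; linarith
    have h12 : 0 < 1 - r ^ 2 := by rw [← hrr]; linarith
    simp only [hD2]
    rw [← hrdef, hrr]
    obtain ⟨Al, hAl⟩ : ∃ Al, Al = Real.log (1 + r) - Real.log (1 - r) := ⟨_, rfl⟩
    rw [← hAl]
    have hA : 2 * r ≤ Al := hAl ▸ two_mul_le_log_sub hr.le hr1
    have hx : k * (q - ν) ^ 2 = r0 - r ^ 2 := by rw [← hrr]; simp only [hS]; ring
    have e : k * Al / (2 * r) + k * (q - ν) * (-(k * (q - ν)) / r) *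
        (1 / (r * (1 - r ^ 2)) - Al / (2 * r ^ 2)) =
        k / (2 * r ^ 3 * (1 - r ^ 2)) *
          (Al * (1 - r ^ 2) * (r ^ 2 + k * (q - ν) ^ 2) - 2 * r * (k * (q - ν) ^ 2)) := by
      field_simp
      ring
    rw [e, hx]
    have hr00 : 0 ≤ r0 := by
      have : 0 ≤ k * (q - ν) ^ 2 := mul_nonneg hk0 (sq_nonneg _)
      nlinarith
    refine mul_nonneg (by positivity) ?_
    nlinarith [mul_le_mul_of_nonneg_right hA (mul_nonneg h12.le hr00),
      mul_nonneg (pow_nonneg hr.le 3) (sub_nonneg.mpr hr01)]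

/-- Conditions making a point `q` and a line `L` certify optimality. -/
def Certificate (γ ν q : ℝ) (L : Fin 2 → ℝ) : Prop :=
  q ∈ Icc (0 : ℝ) 1 ∧
  (L = 0 ∨ ((∀ u w : ℝ, 0 < u → 0 < w → 0 < outDet γ ν u w) ∧
    ∀ u w : ℝ, 0 ≤ u → 0 ≤ w →
      L 0 * u + L 1 * w + negMulLog (u + w) ≤ pairEnt (u + w) (outDet γ ν u w))) ∧
  (∀ c b, refDist (tOut γ ν q) c = 0 → trans γ ν c b = 0) ∧
  ∀ b, -∑ c, trans γ ν c b * Real.log (refDist (tOut γ ν q) c) ≤ objective γ ν q + L b

lemma homogeneous_line {γ ν : ℝ} (L : Fin 2 → ℝ)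
    (h : ∀ q ∈ Icc (0 : ℝ) 1, L 0 * (1 - q) + L 1 * q ≤ gEnt γ ν q) (u w : ℝ) (hu : 0 ≤ u)
    (hw : 0 ≤ w) :
    L 0 * u + L 1 * w + negMulLog (u + w) ≤ pairEnt (u + w) (outDet γ ν u w) := by
  rcases eq_or_lt_of_le (add_nonneg hu hw) with h0 | h0
  · have hu' : u = 0 := by linarith
    have hw' : w = 0 := by linarith
    subst hu' hw'
    simp [outDet, outZero, outOne, pairEnt]
  · set T := u + w with hT
    have hq : w / T ∈ Icc (0 : ℝ) 1 := ⟨by positivity, by rw [div_le_one h0]; linarith⟩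
    have hu' : u = T * (1 - w / T) := by field_simp; linarith
    have hw' : w = T * (w / T) := by field_simp
    have hom : ∀ p, outDet γ ν (T * (1 - p)) (T * p) = T ^ 2 * dOut γ ν p := by
      intro p; simp only [outDet, outZero, outOne, dOut, tOut]; ring
    have e : outDet γ ν u w = T ^ 2 * dOut γ ν (w / T) := by
      rw [← hom, ← hu', ← hw']
    have := mul_le_mul_of_nonneg_left (h _ hq) h0.le
    rw [e, show pairEnt T (T ^ 2 * dOut γ ν (w / T)) = pairEnt (T * 1) (T ^ 2 * dOut γ ν (w / T)) by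
      rw [mul_one], pairEnt_scale h0.le, mul_one]
    rw [gEnt] at this
    have e2 : L 0 * u + L 1 * w = T * (L 0 * (1 - w / T) + L 1 * (w / T)) := by
      rw [show T * (L 0 * (1 - w / T) + L 1 * (w / T)) =
        L 0 * (T * (1 - w / T)) + L 1 * (T * (w / T)) by ring, ← hu', ← hw']
    linarith

theorem certificate_exists {γ ν : ℝ} (hγ : γ ∈ Icc (0 : ℝ) 1) (hν : ν ∈ Icc (0 : ℝ) 1) :
    ∃ q L, Certificate γ ν q L := by
  rcases eq_or_lt_of_le hγ.1 with h0 | hγ0
  · subst h0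
    refine ⟨1 / 2, 0, ⟨by norm_num, by norm_num⟩, Or.inl rfl, ?_, ?_⟩
    · intro c b h; fin_cases c <;> norm_num [refDist, tOut] at h
    · intro b
      have e : objective 0 ν (1 / 2) = Real.log 2 := by
        have : dOut 0 ν (1 / 2) = 0 := by simp [dOut, tOut]
        rw [objective, gEnt_eq, this]
        norm_num [tOut]
        try rw [one_div, binEntropy_two_inv]
      rw [e]
      fin_cases b <;> norm_num [trans, refDist, tOut, Fin.sum_univ_two] <;>
        simp [Real.log_div, Real.log_inv]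
  rcases eq_or_lt_of_le hγ.2 with h1 | hγ1
  · subst h1
    have ho : ∀ q, objective 1 ν q = 0 := by
      intro q
      rw [objective, gEnt, show dOut 1 ν q = (1 - ν) * ν by simp [dOut, tOut]; ring,
        show pairEnt 1 ((1 - ν) * ν) = negMulLog (1 - ν) + negMulLog ν by
          rw [← pairEnt_split (by linarith [hν.2] : (0 : ℝ) ≤ 1 - ν) hν.1]; congr 1; ring,
        binEntropy_eq_negMulLog_add_negMulLog_one_sub]
      simp [tOut]; ring
    rcases eq_or_lt_of_le hν.1 with h | hν0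
    · subst h
      refine ⟨1 / 2, 0, ⟨by norm_num, by norm_num⟩, Or.inl rfl, ?_, ?_⟩
      · intro c b h; fin_cases c <;> simp [refDist, tOut, trans] at h ⊢
      · intro b; simp [trans, refDist, tOut, Fin.sum_univ_two, ho]
    rcases eq_or_lt_of_le hν.2 with h | hν1
    · subst h
      refine ⟨1 / 2, 0, ⟨by norm_num, by norm_num⟩, Or.inl rfl, ?_, ?_⟩
      · intro c b h; fin_cases c <;> simp [refDist, tOut, trans] at h ⊢
      · intro b; simp [trans, refDist, tOut, Fin.sum_univ_two, ho]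
    refine ⟨1 / 2, fun _ => binEntropy ν, ⟨by norm_num, by norm_num⟩, Or.inr ⟨?_, ?_⟩, ?_, ?_⟩
    · intro u w hu hw
      have e : outDet 1 ν u w = (1 - ν) * ν * (u + w) ^ 2 := by
        simp only [outDet, outZero, outOne]; ring
      rw [e]
      have : 0 < 1 - ν := by linarith
      positivity
    · intro u w hu hw
      refine homogeneous_line (γ := 1) (ν := ν) (fun _ => binEntropy ν) (fun q _ => ?_) u w hu hw
      have := ho q
      rw [objective, show tOut 1 ν q = ν by simp [tOut]] at this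
      linarith
    · intro c b h; fin_cases c <;> simp [refDist, tOut, trans] at h ⊢ <;> linarith
    · intro b
      simp [trans, refDist, tOut, Fin.sum_univ_two, ho, binEntropy_eq_negMulLog_add_negMulLog_one_sub,
        negMulLog]
      linarith
  obtain ⟨qm, hqm, hmax⟩ := isCompact_Icc.exists_isMaxOn (nonempty_Icc.mpr zero_le_one)
    (objective_continuous γ ν).continuousOn
  obtain ⟨q, hq, hqmax⟩ : ∃ q ∈ Ioo (0 : ℝ) 1, IsMaxOn (objective γ ν) (Icc 0 1) q := by
    by_cases hi : qm ∈ Ioo (0 : ℝ) 1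
    · exact ⟨qm, hi, hmax⟩
    refine ⟨1 / 2, ⟨by norm_num, by norm_num⟩, fun p hp => ?_⟩
    have h2 := hmax hp
    have h3 : objective γ ν qm = 0 := by
      rcases eq_or_lt_of_le hqm.1 with h | h
      · rw [← h, objective_zero]
      rcases eq_or_lt_of_le hqm.2 with h' | h'
      · rw [h', objective_one]
      · exact absurd ⟨h, h'⟩ hi
    simp only [Set.mem_setOf_eq] at h2 ⊢
    have := objective_nonneg hγ hν (q := 1 / 2) ⟨by norm_num, by norm_num⟩
    linarith
  set t := tOut γ ν q with ht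
  have ht0 : 0 < t := by
    have : 0 ≤ γ * ν := mul_nonneg hγ.1 hν.1
    have : 0 < (1 - γ) * q := mul_pos (by linarith) hq.1
    simp only [ht, tOut]; linarith
  have ht1 : t < 1 := by
    have : γ * ν ≤ γ := mul_le_of_le_one_right hγ.1 hν.2
    have : (1 - γ) * q < 1 - γ := mul_lt_of_lt_one_right (by linarith) hq.2
    simp only [ht, tOut]; linarith
  obtain ⟨hconv, hder⟩ := gEnt_convex hγ0 hγ1 hν
  have htd : HasDerivAt (tOut γ ν) (1 - γ) q := by
    show HasDerivAt (fun p => (1 - γ) * p + γ * ν) (1 - γ) q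
    simpa using (((hasDerivAt_id q).const_mul (1 - γ)).add_const (γ * ν))
  have hod : HasDerivAt (objective γ ν)
      ((Real.log (1 - t) - Real.log t) * (1 - γ) - gSlope γ ν q) q :=
    (HasDerivAt.comp (h₂ := binEntropy) q (hasDerivAt_binEntropy ht0.ne' ht1.ne) htd).sub (hder q hq)
  have hzero := (hqmax.isLocalMax (Icc_mem_nhds hq.1 hq.2)).hasDerivAt_eq_zero hod
  set s := gSlope γ ν q with hs
  refine ⟨q, fun b => gEnt γ ν q + s * ((((b : Fin 2) : ℕ) : ℝ) - q), ⟨hq.1.le, hq.2.le⟩,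
    Or.inr ⟨outDet_pos hγ0 hγ1 hν, fun u w hu hw => homogeneous_line (γ := γ) (ν := ν)
      (fun b : Fin 2 => gEnt γ ν q + s * (((b : ℕ) : ℝ) - q)) (fun p hp => ?_) u w hu hw⟩,
    ?_, ?_⟩
  · have hqI : q ∈ Icc (0 : ℝ) 1 := ⟨hq.1.le, hq.2.le⟩
    simp only [Fin.val_zero, Fin.val_one, Nat.cast_zero, Nat.cast_one]
    rcases lt_trichotomy p q with h | h | h
    · have := hconv.slope_le_of_hasDerivAt hp hqI h (hder q hq)
      rw [slope_def_field, div_le_iff₀ (by linarith)] at this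
      linarith
    · subst h; linarith
    · have := hconv.le_slope_of_hasDerivAt hqI hp h (hder q hq)
      rw [slope_def_field, le_div_iff₀ (by linarith)] at this
      linarith
  · intro c b h
    rw [← ht] at h
    fin_cases c <;> simp [refDist] at h <;> linarith
  · intro b
    simp only [trans, refDist, Fin.sum_univ_two, Matrix.cons_val_zero, Matrix.cons_val_one]
    rw [← ht, objective, ← ht, binEntropy_eq_negMulLog_add_negMulLog_one_sub]
    simp only [negMulLog]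
    rw [sub_eq_zero] at hzero
    have : tOut γ ν ((b : ℕ) : ℝ) = t + (1 - γ) * (((b : ℕ) : ℝ) - q) := by
      simp only [ht, tOut]; ring
    rw [this, ← hzero]
    linarith

end

end Vale.Agent.P358
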