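import Vale.Agent.P358.Entropy
import Mathlib.Analysis.MeanInequalities

/-!
# Scalar entropy functions
-/

namespace Vale.Agent.P358

open Real

noncomputable section

/-- Entropy of the pair of nonnegative numbers with sum `T` and product `D`. -/
def pairEnt (T D : ℝ) : ℝ :=
  negMulLog ((T + √(T ^ 2 - 4 * D)) / 2) + negMulLog ((T - √(T ^ 2 - 4 * D)) / 2)

lemma pair_nonneg {T D : ℝ} (hT : 0 ≤ T) (hD : 0 ≤ D) :
    0 ≤ (T + √(T ^ 2 - 4 * D)) / 2 ∧ 0 ≤ (T - √(T ^ 2 - 4 * D)) / 2 := by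
  have h : √(T ^ 2 - 4 * D) ≤ T := by
    rw [Real.sqrt_le_left hT]; linarith
  constructor <;> linarith [Real.sqrt_nonneg (T ^ 2 - 4 * D)]

lemma pair_log {T D t : ℝ} (hT : 0 ≤ T) (hD : 0 ≤ D) (hdisc : 4 * D ≤ T ^ 2) (ht : 0 ≤ t) :
    Real.log (1 + t * ((T + √(T ^ 2 - 4 * D)) / 2)) +
      Real.log (1 + t * ((T - √(T ^ 2 - 4 * D)) / 2)) = Real.log (1 + t * T + t ^ 2 * D) := by
  obtain ⟨h1, h2⟩ := pair_nonneg hT hD
  rw [← Real.log_mul (by positivity) (by positivity)]
  congr 1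
  have := Real.mul_self_sqrt (by linarith : (0 : ℝ) ≤ T ^ 2 - 4 * D)
  linear_combination (-(t ^ 2) / 4) * this

lemma pairEnt_scale {c T D : ℝ} (hc : 0 ≤ c) :
    pairEnt (c * T) (c ^ 2 * D) = c * pairEnt T D + negMulLog c * T := by
  have h : √((c * T) ^ 2 - 4 * (c ^ 2 * D)) = c * √(T ^ 2 - 4 * D) := by
    rw [show (c * T) ^ 2 - 4 * (c ^ 2 * D) = c ^ 2 * (T ^ 2 - 4 * D) by ring,
      Real.sqrt_mul (sq_nonneg c), Real.sqrt_sq hc]
  unfold pairEnt
  rw [h, show (c * T + c * √(T ^ 2 - 4 * D)) / 2 = c * ((T + √(T ^ 2 - 4 * D)) / 2) by ring,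
    show (c * T - c * √(T ^ 2 - 4 * D)) / 2 = c * ((T - √(T ^ 2 - 4 * D)) / 2) by ring,
    negMulLog_mul, negMulLog_mul]
  ring

lemma pairEnt_split {x y : ℝ} (hx : 0 ≤ x) (hy : 0 ≤ y) :
    pairEnt (x + y) (x * y) = negMulLog x + negMulLog y := by
  unfold pairEnt
  rw [show (x + y) ^ 2 - 4 * (x * y) = (x - y) ^ 2 by ring, Real.sqrt_sq_eq_abs]
  rcases le_total y x with h | h
  · rw [abs_of_nonneg (sub_nonneg.mpr h)]; ring_nf
  · rw [abs_of_nonpos (sub_nonpos.mpr h)]; ring_nf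

/-- Entropy gain of merging three branches with weights `u`, `v`, `w`. -/
def triGain (u v w : ℝ) : ℝ :=
  pairEnt (u + v + w) (v * w) - negMulLog u - negMulLog v - negMulLog w

lemma triGain_zero {v w : ℝ} (hv : 0 ≤ v) (hw : 0 ≤ w) : triGain 0 v w = 0 := by
  rw [triGain, zero_add, pairEnt_split hv hw, negMulLog_zero]; ring

lemma triGain_smul {c u v w : ℝ} (hc : 0 ≤ c) :
    triGain (c * u) (c * v) (c * w) = c * triGain u v w := by
  unfold triGain
  rw [show c * u + c * v + c * w = c * (u + v + w) by ring,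
    show c * v * (c * w) = c ^ 2 * (v * w) by ring, pairEnt_scale hc]
  simp only [negMulLog_mul]
  ring

lemma tri_disc {u v w : ℝ} (hu : 0 ≤ u) (hv : 0 ≤ v) (hw : 0 ≤ w) :
    4 * (v * w) ≤ (u + v + w) ^ 2 := by
  nlinarith [sq_nonneg (v - w)]

lemma tri_factor {u v w t : ℝ} (hu : 0 ≤ u) (hv : 0 ≤ v) (hw : 0 ≤ w) (ht : 0 ≤ t) :
    Real.log (1 + t * (u + v + w) + t ^ 2 * (v * w)) =
      Real.log (1 + t * v) + Real.log (1 + t * w) +
        Real.log (1 + t * u / ((1 + t * v) * (1 + t * w))) := by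
  rw [← Real.log_mul (by positivity) (by positivity), ← Real.log_mul (by positivity) (by positivity)]
  congr 1
  field_simp
  ring

/-- The points of a triple and of the merged pair, as a signed list. -/
def triList (u v w : ℝ) : Fin 5 → ℝ :=
  ![((u + v + w) + √((u + v + w) ^ 2 - 4 * (v * w))) / 2,
    ((u + v + w) - √((u + v + w) ^ 2 - 4 * (v * w))) / 2, u, v, w]

/-- Signs for `triList`. -/
def triSign : Fin 5 → ℝ := ![1, 1, -1, -1, -1]

lemma triList_facts {u v w : ℝ} (hu : 0 ≤ u) (hv : 0 ≤ v) (hw : 0 ≤ w) :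
    (∀ i, 0 ≤ triList u v w i) ∧ ∑ i, triSign i * triList u v w i = 0 ∧
    ∑ i, triSign i * negMulLog (triList u v w i) = triGain u v w ∧
    ∀ t, 0 ≤ t → ∑ i, triSign i * Real.log (1 + t * triList u v w i) =
      Real.log (1 + t * u / ((1 + t * v) * (1 + t * w))) - Real.log (1 + t * u) := by
  obtain ⟨h1, h2⟩ := pair_nonneg (D := v * w) (by positivity : 0 ≤ u + v + w) (mul_nonneg hv hw)
  refine ⟨fun i => ?_, ?_, ?_, fun t ht => ?_⟩
  · fin_cases i <;> simp [triList] <;> first | exact h1 | exact h2 | assumption | linarith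
  · simp [Fin.sum_univ_five, triList, triSign]; ring
  · simp [Fin.sum_univ_five, triList, triSign, triGain, pairEnt]; ring
  · have := pair_log (by positivity : 0 ≤ u + v + w) (mul_nonneg hv hw) (tri_disc hu hv hw) ht
    rw [tri_factor hu hv hw ht] at this
    simp [Fin.sum_univ_five, triList, triSign]
    linarith

lemma log_geom {a b A B : ℝ} (hab : a + b = 1) (ha : 0 ≤ a) (hb : 0 ≤ b) (hA : 0 < A)
    (hB : 0 < B) : Real.log (1 + A ^ a * B ^ b) ≤ a * Real.log (1 + A) + b * Real.log (1 + B) := by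
  have hA1 : 0 < 1 + A := by linarith
  have hB1 : 0 < 1 + B := by linarith
  have h1 := Real.geom_mean_le_arith_mean2_weighted ha hb (inv_nonneg.mpr hA1.le)
    (inv_nonneg.mpr hB1.le) hab
  have h2 := Real.geom_mean_le_arith_mean2_weighted ha hb (div_nonneg hA.le hA1.le)
    (div_nonneg hB.le hB1.le) hab
  have hsum : a * (1 + A)⁻¹ + b * (1 + B)⁻¹ + (a * (A / (1 + A)) + b * (B / (1 + B))) = 1 := by
    field_simp; linear_combination (1 + A) * (1 + B) * hab
  have hP : 0 < (1 + A) ^ a * (1 + B) ^ b :=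
    mul_pos (Real.rpow_pos_of_pos hA1 a) (Real.rpow_pos_of_pos hB1 b)
  rw [← Real.log_rpow hA1, ← Real.log_rpow hB1,
    ← Real.log_mul (Real.rpow_pos_of_pos hA1 a).ne' (Real.rpow_pos_of_pos hB1 b).ne']
  refine Real.log_le_log (by positivity) ?_
  rw [Real.inv_rpow hA1.le, Real.inv_rpow hB1.le, ← mul_inv] at h1
  rw [Real.div_rpow hA.le hA1.le, Real.div_rpow hB.le hB1.le, div_mul_div_comm] at h2
  have h3 : ((1 + A) ^ a * (1 + B) ^ b)⁻¹ + A ^ a * B ^ b / ((1 + A) ^ a * (1 + B) ^ b) ≤ 1 := by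
    linarith
  rw [inv_eq_one_div, ← add_div, div_le_one hP] at h3
  exact h3

lemma triGain_convex {U a b x₁ x₂ y₁ y₂ : ℝ} (hU : 0 < U) (ha : 0 ≤ a) (hb : 0 ≤ b)
    (hab : a + b = 1) (hx₁ : 0 ≤ x₁) (hx₂ : 0 ≤ x₂) (hy₁ : 0 ≤ y₁) (hy₂ : 0 ≤ y₂) :
    triGain U (a * x₁ + b * x₂) (a * y₁ + b * y₂) ≤
      a * triGain U x₁ y₁ + b * triGain U x₂ y₂ := by
  set xm := a * x₁ + b * x₂ with hxm
  set ym := a * y₁ + b * y₂ with hym
  have hxm0 : 0 ≤ xm := by positivity
  have hym0 : 0 ≤ ym := by positivity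
  obtain ⟨p1, s1, e1, l1⟩ := triList_facts hU.le hx₁ hy₁
  obtain ⟨p2, s2, e2, l2⟩ := triList_facts hU.le hx₂ hy₂
  obtain ⟨pm, sm, em, lm⟩ := triList_facts hU.le hxm0 hym0
  have key := entropy_list_nonneg
    (Sum.elim (fun i => a * triSign i)
      (Sum.elim (fun i => b * triSign i) (fun i => -triSign i)))
    (Sum.elim (triList U x₁ y₁) (Sum.elim (triList U x₂ y₂) (triList U xm ym)))
    (by rintro (i | i | i); exacts [p1 i, p2 i, pm i])
    (by simp [Fintype.sum_sum_type, mul_assoc, ← Finset.mul_sum, s1, s2, sm])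
    (fun t ht => by
      simp only [Fintype.sum_sum_type, Sum.elim_inl, Sum.elim_inr, mul_assoc, ← Finset.mul_sum,
        neg_mul, Finset.sum_neg_distrib, l1 t ht.le, l2 t ht.le, lm t ht.le]
      have hgm : (1 + t * x₁) ^ a * (1 + t * x₂) ^ b ≤ 1 + t * xm := by
        refine (Real.geom_mean_le_arith_mean2_weighted ha hb (by positivity) (by positivity)
          hab).trans (le_of_eq ?_)
        rw [hxm]; linear_combination hab
      have hgn : (1 + t * y₁) ^ a * (1 + t * y₂) ^ b ≤ 1 + t * ym := by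
        refine (Real.geom_mean_le_arith_mean2_weighted ha hb (by positivity) (by positivity)
          hab).trans (le_of_eq ?_)
        rw [hym]; linear_combination hab
      have hA : 0 < t * U / ((1 + t * x₁) * (1 + t * y₁)) := by positivity
      have hB : 0 < t * U / ((1 + t * x₂) * (1 + t * y₂)) := by positivity
      have hG : t * U / ((1 + t * xm) * (1 + t * ym)) ≤
          (t * U / ((1 + t * x₁) * (1 + t * y₁))) ^ a *
            (t * U / ((1 + t * x₂) * (1 + t * y₂))) ^ b := by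
        rw [Real.div_rpow (by positivity) (by positivity),
          Real.div_rpow (by positivity) (by positivity), div_mul_div_comm,
          ← Real.rpow_add (by positivity), hab, Real.rpow_one,
          Real.mul_rpow (by positivity) (by positivity), Real.mul_rpow (by positivity) (by positivity)]
        have : 0 < (1 + t * x₁) ^ a * (1 + t * y₁) ^ a * ((1 + t * x₂) ^ b * (1 + t * y₂) ^ b) :=
          mul_pos (mul_pos (Real.rpow_pos_of_pos (by positivity) a)
            (Real.rpow_pos_of_pos (by positivity) a))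
            (mul_pos (Real.rpow_pos_of_pos (by positivity) b)
              (Real.rpow_pos_of_pos (by positivity) b))
        refine div_le_div_of_nonneg_left (by positivity) this ?_
        calc _ = ((1 + t * x₁) ^ a * (1 + t * x₂) ^ b) *
              ((1 + t * y₁) ^ a * (1 + t * y₂) ^ b) := by ring
          _ ≤ _ := mul_le_mul hgm hgn (mul_nonneg (Real.rpow_nonneg (by positivity) a)
              (Real.rpow_nonneg (by positivity) b)) (by positivity)
      have h1 := log_geom hab ha hb hA hB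
      have h2 : Real.log (1 + t * U / ((1 + t * xm) * (1 + t * ym))) ≤ _ :=
        (Real.log_le_log (by positivity) (by linarith [hG])).trans h1
      have h3 : a * Real.log (1 + t * U) + b * Real.log (1 + t * U) = Real.log (1 + t * U) := by
        rw [← add_mul, hab, one_mul]
      linarith)
  simp only [Fintype.sum_sum_type, Sum.elim_inl, Sum.elim_inr, mul_assoc, ← Finset.mul_sum,
    neg_mul, Finset.sum_neg_distrib, e1, e2, em] at key
  linarith

lemma triGain_anti {u v w v' w' : ℝ} (hu : 0 ≤ u) (hv : 0 ≤ v) (hw : 0 ≤ w) (hv' : v ≤ v')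
    (hw' : w ≤ w') : triGain u v' w' ≤ triGain u v w := by
  obtain ⟨p1, s1, e1, l1⟩ := triList_facts hu hv hw
  obtain ⟨p2, s2, e2, l2⟩ := triList_facts hu (hv.trans hv') (hw.trans hw')
  have key := entropy_list_nonneg (Sum.elim triSign (fun i => -triSign i))
    (Sum.elim (triList u v w) (triList u v' w'))
    (by rintro (i | i); exacts [p1 i, p2 i])
    (by simp [Fintype.sum_sum_type, s1, s2])
    (fun t ht => by
      simp only [Fintype.sum_sum_type, Sum.elim_inl, Sum.elim_inr, neg_mul, Finset.sum_neg_distrib,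
        l1 t ht.le, l2 t ht.le]
      have hle : t * u / ((1 + t * v') * (1 + t * w')) ≤ t * u / ((1 + t * v) * (1 + t * w)) := by
        have : 0 ≤ v' := hv.trans hv'
        gcongr
      have := Real.log_le_log (show 0 < 1 + t * u / ((1 + t * v') * (1 + t * w')) by
        have : 0 ≤ v' := hv.trans hv'
        have : 0 ≤ w' := hw.trans hw'
        positivity) (by linarith [hle] :
          1 + t * u / ((1 + t * v') * (1 + t * w')) ≤ 1 + t * u / ((1 + t * v) * (1 + t * w)))
      linarith)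
  simp only [Fintype.sum_sum_type, Sum.elim_inl, Sum.elim_inr, neg_mul, Finset.sum_neg_distrib,
    e1, e2] at key
  linarith

lemma triGain_add {u₁ v₁ w₁ u₂ v₂ w₂ : ℝ} (hu₁ : 0 ≤ u₁) (hv₁ : 0 ≤ v₁) (hw₁ : 0 ≤ w₁)
    (hu₂ : 0 ≤ u₂) (hv₂ : 0 ≤ v₂) (hw₂ : 0 ≤ w₂) :
    triGain (u₁ + u₂) (v₁ + v₂) (w₁ + w₂) ≤ triGain u₁ v₁ w₁ + triGain u₂ v₂ w₂ := by
  rcases eq_or_lt_of_le hu₁ with h | h1
  · rw [← h, zero_add, triGain_zero hv₁ hw₁, zero_add]
    exact triGain_anti hu₂ hv₂ hw₂ (by linarith) (by linarith)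
  rcases eq_or_lt_of_le hu₂ with h | h2
  · rw [← h, add_zero, triGain_zero hv₂ hw₂, add_zero]
    exact triGain_anti hu₁ hv₁ hw₁ (by linarith) (by linarith)
  set U := u₁ + u₂ with hU
  have hUp : 0 < U := by linarith
  set a := u₁ / U with ha
  set b := u₂ / U with hb
  have hap : 0 < a := div_pos h1 hUp
  have hbp : 0 < b := div_pos h2 hUp
  have h := triGain_convex hUp hap.le hbp.le (by rw [ha, hb, ← add_div, div_self hUp.ne'])
    (div_nonneg hv₁ hap.le) (div_nonneg hv₂ hbp.le) (div_nonneg hw₁ hap.le)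
    (div_nonneg hw₂ hbp.le)
  rw [mul_div_cancel₀ _ hap.ne', mul_div_cancel₀ _ hbp.ne', mul_div_cancel₀ _ hap.ne',
    mul_div_cancel₀ _ hbp.ne', ← triGain_smul hap.le, ← triGain_smul hbp.le,
    mul_div_cancel₀ _ hap.ne', mul_div_cancel₀ _ hbp.ne', mul_div_cancel₀ _ hap.ne',
    mul_div_cancel₀ _ hbp.ne'] at h
  rwa [show a * U = u₁ by rw [ha]; field_simp, show b * U = u₂ by rw [hb]; field_simp] at h

lemma triGain_sum {β : Type*} (s : Finset β) (u v w : β → ℝ) (hu : ∀ k, 0 ≤ u k)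
    (hv : ∀ k, 0 ≤ v k) (hw : ∀ k, 0 ≤ w k) :
    triGain (∑ k ∈ s, u k) (∑ k ∈ s, v k) (∑ k ∈ s, w k) ≤
      ∑ k ∈ s, triGain (u k) (v k) (w k) := by
  classical
  induction s using Finset.induction_on with
  | empty => simp [triGain_zero le_rfl le_rfl]
  | @insert k s hk ih =>
    simp only [Finset.sum_insert hk]
    exact (triGain_add (hu k) (hv k) (hw k) (Finset.sum_nonneg fun i _ => hu i)
      (Finset.sum_nonneg fun i _ => hv i) (Finset.sum_nonneg fun i _ => hw i)).trans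
      (add_le_add_right ih _)

end

end Vale.Agent.P358
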