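import Vale.Agent.P358.Convex
import Vale.Agent.P358.Scalar
import Mathlib.Analysis.InnerProductSpace.PiL2
import Mathlib.Data.Matrix.ColumnRowPartitioned

/-!
# Entropy of two-block states with one diagonalisable branch
-/

namespace Vale.Agent.P358

open scoped ComplexOrder
open Matrix Real

noncomputable section

variable {ι κ : Type*} [Fintype ι] [DecidableEq ι] [Fintype κ] [DecidableEq κ]

/-- Entropy minus the entropy of the trace; homogeneous of degree one. -/
def excess (X : Matrix ι ι ℂ) : ℝ := ent X - negMulLog X.trace.re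

lemma excess_nonneg {X : Matrix ι ι ℂ} (hX : X.PosSemidef) : 0 ≤ excess X := by
  rw [excess, sub_nonneg, ent_eq hX]
  have h : ∀ i, -(hX.1.eigenvalues i) * Real.log X.trace.re ≤ negMulLog (hX.1.eigenvalues i) := by
    intro i
    rcases eq_or_lt_of_le (hX.eigenvalues_nonneg i) with h | h
    · simp [← h]
    · have hle : hX.1.eigenvalues i ≤ X.trace.re := by
        rw [trace_re_eq_sum hX]
        exact Finset.single_le_sum (fun j _ => hX.eigenvalues_nonneg j) (Finset.mem_univ i)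
      rw [negMulLog, neg_mul, neg_mul, neg_le_neg_iff]
      exact mul_le_mul_of_nonneg_left (Real.log_le_log h hle) h.le
  have := Finset.sum_le_sum (s := Finset.univ) fun i _ => h i
  rw [← Finset.sum_mul, Finset.sum_neg_distrib, ← trace_re_eq_sum hX] at this
  simpa [negMulLog] using this

lemma excess_smul {X : Matrix ι ι ℂ} (hX : X.PosSemidef) {c : ℝ} (hc : 0 ≤ c) :
    excess ((c : ℂ) • X) = c * excess X := by
  rw [excess, excess, ent_smul hX hc]
  simp [Matrix.trace_smul, negMulLog_mul]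
  ring

lemma excess_conj {X : Matrix κ κ ℂ} (hX : X.PosSemidef) (U : Matrix ι κ ℂ) (hU : Uᴴ * U = 1) :
    excess (U * X * Uᴴ) = excess X := by
  rw [excess, excess, ent_conj hX U hU, Matrix.trace_mul_comm, ← Matrix.mul_assoc, hU,
    Matrix.one_mul]

lemma trace_conj {X : Matrix κ κ ℂ} (U : Matrix ι κ ℂ) (hU : Uᴴ * U = 1) :
    (U * X * Uᴴ).trace = X.trace := by
  rw [Matrix.trace_mul_comm, ← Matrix.mul_assoc, hU, Matrix.one_mul]

lemma trace_blocks (A B C D : Matrix ι ι ℂ) :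
    (fromBlocks A B C D).trace = A.trace + D.trace := by
  simp [Matrix.trace, Fintype.sum_sum_type]

/-- Singular value decomposition of a square matrix. -/
theorem svd (A : Matrix ι ι ℂ) : ∃ (U V : Matrix ι ι ℂ) (d : ι → ℝ),
    Uᴴ * U = 1 ∧ Vᴴ * V = 1 ∧ (∀ k, 0 ≤ d k) ∧
      A = U * diagonal (fun k => (d k : ℂ)) * Vᴴ := by
  have hP := Matrix.posSemidef_conjTranspose_mul_self A
  set V : Matrix ι ι ℂ := (hP.1.eigenvectorUnitary : Matrix ι ι ℂ) with hV
  set a := hP.1.eigenvalues with ha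
  have hV1 : Vᴴ * V = 1 := Matrix.UnitaryGroup.star_mul_self hP.1.eigenvectorUnitary
  have hV2 : V * Vᴴ = 1 := mul_eq_one_comm.mp hV1
  set G := A * V with hGdef
  have hG : Gᴴ * G = diagonal (fun k => (a k : ℂ)) := by
    rw [hGdef, Matrix.conjTranspose_mul, Matrix.mul_assoc, ← Matrix.mul_assoc Aᴴ,
      spectral _ hP.1, ← hV, ← ha]
    simp only [← Matrix.mul_assoc, hV1, Matrix.one_mul]
    rw [Matrix.mul_assoc, hV1, Matrix.mul_one]
  have hGe : ∀ k l, ∑ i, star (G i k) * G i l = if k = l then (a k : ℂ) else 0 := by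
    intro k l
    have := congrFun (congrFun hG k) l
    simpa [Matrix.mul_apply, Matrix.diagonal_apply] using this
  let f : ι → EuclideanSpace ℂ ι := fun k => WithLp.toLp 2 fun i => G i k / (√(a k) : ℂ)
  have hf : Orthonormal ℂ (({k | a k ≠ 0} : Set ι).restrict f) := by
    rw [orthonormal_iff_ite]
    rintro ⟨k, hk⟩ ⟨l, hl⟩
    simp only [Set.restrict_apply, Subtype.mk.injEq]
    rw [EuclideanSpace.inner_eq_star_dotProduct]
    have e : (∑ i, G i l / (√(a l) : ℂ) * star (G i k / (√(a k) : ℂ))) =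
        (∑ i, star (G i k) * G i l) / ((√(a k) : ℂ) * (√(a l) : ℂ)) := by
      rw [Finset.sum_div]
      refine Finset.sum_congr rfl fun i _ => ?_
      rw [star_div₀, show star ((√(a k) : ℂ)) = (√(a k) : ℂ) from Complex.conj_ofReal _]
      ring
    show (∑ i, G i l / (√(a l) : ℂ) * star (G i k / (√(a k) : ℂ))) = _
    rw [e, hGe]
    split_ifs with h
    · subst h
      rw [← Complex.ofReal_mul, Real.mul_self_sqrt (hP.eigenvalues_nonneg k)]
      exact div_self (by exact_mod_cast hk)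
    · simp
  obtain ⟨b, hb⟩ := hf.exists_orthonormalBasis_extension_of_card_eq (by simp)
  refine ⟨Matrix.of fun i k => b k i, V, fun k => √(a k), ?_, hV1, fun k => Real.sqrt_nonneg _, ?_⟩
  · ext k l
    have := orthonormal_iff_ite.mp b.orthonormal k l
    rw [EuclideanSpace.inner_eq_star_dotProduct, dotProduct_comm] at this
    simpa [Matrix.mul_apply, Matrix.one_apply, dotProduct] using this
  · have hGU : G = Matrix.of (fun i k => b k i) * diagonal (fun k => (√(a k) : ℂ)) := by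
      ext i k
      rw [Matrix.mul_diagonal, Matrix.of_apply]
      by_cases hk : a k = 0
      · rw [hk, Real.sqrt_zero, Complex.ofReal_zero, mul_zero]
        have := congrArg Complex.re (hGe k k)
        simp only [Complex.re_sum, hk, Complex.ofReal_zero, ite_self, Complex.zero_re] at this
        have h2 := (Finset.sum_eq_zero_iff_of_nonneg fun j _ => by
          simp [Complex.mul_re]; nlinarith).mp this i (Finset.mem_univ i)
        apply Complex.normSq_eq_zero.mp
        rw [← h2]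
        simp [Complex.normSq_apply, Complex.mul_re]
      · rw [hb k hk]
        have : (√(a k) : ℂ) ≠ 0 := by
          have := (Real.sqrt_pos.mpr (lt_of_le_of_ne (hP.eigenvalues_nonneg k) (Ne.symm hk))).ne'
          exact_mod_cast this
        simp [f, div_mul_cancel₀ _ this]
    rw [← hGU, hGdef, Matrix.mul_assoc, hV2, Matrix.mul_one]

/-- Diagonal matrix with real entries. -/
def rdiag (d : ι → ℝ) : Matrix ι ι ℂ := diagonal fun k => (d k : ℂ)

lemma rdiag_mul (d e : ι → ℝ) : rdiag d * rdiag e = rdiag (fun k => d k * e k) := by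
  simp [rdiag, Matrix.diagonal_mul_diagonal]

lemma rdiag_conjTranspose (d : ι → ℝ) : (rdiag d)ᴴ = rdiag d := by
  simp [rdiag, Matrix.diagonal_conjTranspose]

lemma trace_rdiag_mul (d : ι → ℝ) (E : Matrix ι ι ℂ) (hE : ∀ k, E k k = 0) :
    (rdiag d * E).trace = 0 := by
  simp [rdiag, Matrix.trace, Matrix.diagonal_mul, hE]

lemma det_blocks_eq (d : ι → ℝ) (C₁ C₂ : Matrix ι ι ℂ) {t : ℝ} (ht : 0 ≤ t) :
    (1 + (t : ℂ) • (fromBlocks (rdiag d) C₁ C₂ 0 * (fromBlocks (rdiag d) C₁ C₂ 0)ᴴ)).det =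
      (fromBlocks (1 + (t : ℂ) • (C₁ * C₁ᴴ)) (rdiag fun k => √t * d k)
        (-rdiag fun k => √t * d k) (1 + (t : ℂ) • (C₂ᴴ * C₂))).det := by
  have ht' : (0 : ℂ) ≤ (t : ℂ) := by exact_mod_cast ht
  have hW : IsUnit (1 + (t : ℂ) • (C₂ * C₂ᴴ)).det := isUnit_iff_ne_zero.mpr
    (PosDef.one.add_posSemidef ((posSemidef_self_mul_conjTranspose C₂).smul ht')).det_pos.ne'
  have hV : IsUnit (1 + (t : ℂ) • (C₂ᴴ * C₂)).det := isUnit_iff_ne_zero.mpr
    (PosDef.one.add_posSemidef ((posSemidef_conjTranspose_mul_self C₂).smul ht')).det_pos.ne'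
  set W := 1 + (t : ℂ) • (C₂ * C₂ᴴ) with hWdef
  set V := 1 + (t : ℂ) • (C₂ᴴ * C₂) with hVdef
  have hVi : V⁻¹ = 1 - (t : ℂ) • (C₂ᴴ * W⁻¹ * C₂) := by
    apply Matrix.inv_eq_right_inv
    have h1 : V * C₂ᴴ = C₂ᴴ * W := by
      simp [hVdef, hWdef, Matrix.add_mul, Matrix.mul_add, Matrix.mul_assoc]
    rw [Matrix.mul_sub, Matrix.mul_one, Matrix.mul_smul,
      show V * (C₂ᴴ * W⁻¹ * C₂) = (V * C₂ᴴ) * W⁻¹ * C₂ by simp only [Matrix.mul_assoc], h1,
      Matrix.mul_assoc C₂ᴴ, Matrix.mul_nonsing_inv _ hW, Matrix.mul_one, hVdef, add_sub_cancel_right]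
  have hdt : (rdiag fun k => √t * d k) = (√t : ℂ) • rdiag d := by
    ext i j; by_cases h : i = j <;> simp [rdiag, h]
  have hst : (√t : ℂ) * (√t : ℂ) = (t : ℂ) := by
    rw [← Complex.ofReal_mul, Real.mul_self_sqrt ht]
  rw [fromBlocks_conjTranspose, fromBlocks_multiply, fromBlocks_smul, ← fromBlocks_one,
    fromBlocks_add]
  simp only [rdiag_conjTranspose, Matrix.conjTranspose_zero, Matrix.mul_zero, Matrix.zero_mul,
    add_zero, zero_add]
  letI := Matrix.invertibleOfIsUnitDet _ hW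
  letI := Matrix.invertibleOfIsUnitDet _ hV
  rw [Matrix.det_fromBlocks₂₂, Matrix.det_fromBlocks₂₂, Matrix.invOf_eq_nonsing_inv,
    Matrix.invOf_eq_nonsing_inv, hVi, hdt]
  congr 1
  · rw [hVdef, ← Matrix.smul_mul, Matrix.det_one_add_mul_comm, Matrix.mul_smul]
  · congr 1
    simp only [Matrix.mul_neg, Matrix.neg_mul, sub_neg_eq_add, Matrix.mul_sub, Matrix.sub_mul,
      Matrix.mul_one, Matrix.smul_mul, Matrix.mul_smul, smul_smul, smul_sub, smul_add,
      Matrix.mul_assoc, hst]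
    rw [show (√t : ℂ) * ((t : ℂ) * (√t : ℂ)) = (t : ℂ) * (t : ℂ) by linear_combination (t : ℂ) * hst,
      hWdef]
    abel

/-- The fundamental inequality, with the first branch diagonal. -/
theorem core_diag (d : ι → ℝ) (C₁ C₂ : Matrix ι ι ℂ) :
    excess (rdiag d * (rdiag d)ᴴ) + excess (C₁ * C₁ᴴ) + excess (C₂ * C₂ᴴ) +
      pairEnt ((rdiag d * (rdiag d)ᴴ).trace.re + (C₁ * C₁ᴴ).trace.re + (C₂ * C₂ᴴ).trace.re)
        ((C₁ * C₁ᴴ).trace.re * (C₂ * C₂ᴴ).trace.re) ≤
      ent (fromBlocks (rdiag d) C₁ C₂ 0 * (fromBlocks (rdiag d) C₁ C₂ 0)ᴴ) := by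
  have hP := posSemidef_self_mul_conjTranspose C₁
  have hR := posSemidef_conjTranspose_mul_self C₂
  have hσ := posSemidef_self_mul_conjTranspose (fromBlocks (rdiag d) C₁ C₂ 0)
  set P := C₁ * C₁ᴴ with hPdef
  set R := C₂ᴴ * C₂ with hRdef
  set σ := fromBlocks (rdiag d) C₁ C₂ 0 * (fromBlocks (rdiag d) C₁ C₂ 0)ᴴ with hσdef
  set u : ι → ℝ := fun k => d k * d k with hu
  set p : ι → ℝ := fun k => (P k k).re with hp
  set r : ι → ℝ := fun k => (R k k).re with hr
  have hu0 : ∀ k, 0 ≤ u k := fun k => mul_self_nonneg _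
  have hp0 : ∀ k, 0 ≤ p k := fun k => (Complex.nonneg_iff.mp hP.diag_nonneg).1
  have hr0 : ∀ k, 0 ≤ r k := fun k => (Complex.nonneg_iff.mp hR.diag_nonneg).1
  have hdd : rdiag d * (rdiag d)ᴴ = rdiag u := by rw [rdiag_conjTranspose, rdiag_mul]
  have trD : (rdiag d * (rdiag d)ᴴ).trace.re = ∑ k, u k := by
    rw [hdd]; simp [rdiag, Matrix.trace]
  have trP : P.trace.re = ∑ k, p k := by simp [Matrix.trace, hp]
  have trR : (C₂ * C₂ᴴ).trace.re = ∑ k, r k := by
    rw [Matrix.trace_mul_comm, ← hRdef]; simp [Matrix.trace, hr]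
  have trσ : σ.trace.re = ∑ k, (u k + p k + r k) := by
    rw [hσdef, fromBlocks_conjTranspose, fromBlocks_multiply, trace_blocks]
    simp only [Matrix.conjTranspose_zero, Matrix.mul_zero, Matrix.trace_add, add_zero,
      Complex.add_re, ← hPdef, trD, trP, trR, Finset.sum_add_distrib]
  let pt : ι × Fin 4 → ℝ := fun i =>
    ![((u i.1 + p i.1 + r i.1) + √((u i.1 + p i.1 + r i.1) ^ 2 - 4 * (p i.1 * r i.1))) / 2,
      ((u i.1 + p i.1 + r i.1) - √((u i.1 + p i.1 + r i.1) ^ 2 - 4 * (p i.1 * r i.1))) / 2,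
      p i.1, r i.1] i.2
  let sg : ι × Fin 4 → ℝ := fun i => ![-1, -1, 1, 1] i.2
  have key := entropy_list_nonneg
    (Sum.elim (fun _ : ι ⊕ ι => (1 : ℝ)) (Sum.elim (fun _ : ι => (-1 : ℝ))
      (Sum.elim (fun _ : ι => (-1 : ℝ)) sg)))
    (Sum.elim hσ.1.eigenvalues (Sum.elim hP.1.eigenvalues (Sum.elim hR.1.eigenvalues pt)))
    (by
      rintro (i | i | i | ⟨k, j⟩)
      · exact hσ.eigenvalues_nonneg i
      · exact hP.eigenvalues_nonneg i
      · exact hR.eigenvalues_nonneg i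
      · obtain ⟨h1, h2⟩ := pair_nonneg (D := p k * r k)
          (by linarith [hu0 k, hp0 k, hr0 k] : 0 ≤ u k + p k + r k) (mul_nonneg (hp0 k) (hr0 k))
        simp only [Sum.elim_inr, pt]
        fin_cases j <;> simp [h1, h2, hp0 k, hr0 k])
    (by
      have trR' : R.trace.re = ∑ k, r k := by simp [Matrix.trace, hr]
      simp only [Fintype.sum_sum_type, Sum.elim_inl, Sum.elim_inr, one_mul, neg_mul,
        Finset.sum_neg_distrib, ← trace_re_eq_sum hP, ← trace_re_eq_sum hR, Fintype.sum_prod_type,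
        Fin.sum_univ_four, sg, pt, trP, trR']
      rw [← Fintype.sum_sum_type hσ.1.eigenvalues, ← trace_re_eq_sum hσ, trσ]
      simp [Finset.sum_add_distrib]
      simp only [← Finset.sum_add_distrib, ← Finset.sum_sub_distrib, ← Finset.sum_neg_distrib]
      exact Finset.sum_eq_zero fun k _ => by ring)
    (fun t ht => by
      have ht' : (0 : ℂ) ≤ (t : ℂ) := by exact_mod_cast ht.le
      simp only [Fintype.sum_sum_type, Sum.elim_inl, Sum.elim_inr, one_mul, neg_mul,
        Finset.sum_neg_distrib, ← ldet_eq_sum hP ht.le, ← ldet_eq_sum hR ht.le,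
        Fintype.sum_prod_type, Fin.sum_univ_four, sg, pt]
      rw [← Fintype.sum_sum_type fun i => Real.log (1 + t * hσ.1.eigenvalues i),
        ← ldet_eq_sum hσ ht.le]
      simp only [Matrix.cons_val_zero, Matrix.cons_val_one, Matrix.cons_val, neg_mul, one_mul]
      set z : ι → ℝ := fun k => 1 + t * p k with hz
      set v : ι → ℝ := fun k => 1 + t * r k with hv
      set e : ι → ℝ := fun k => √t * d k with he
      have hz0 : ∀ k, 0 < z k := fun k => by have := mul_nonneg ht.le (hp0 k); simp only [hz]; linarith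
      have hv0 : ∀ k, 0 < v k := fun k => by have := mul_nonneg ht.le (hr0 k); simp only [hv]; linarith
      have hden : ∀ k, 0 < z k * v k + e k * e k := fun k =>
        add_pos_of_pos_of_nonneg (mul_pos (hz0 k) (hv0 k)) (mul_self_nonneg _)
      set H₁ := fromBlocks (1 + (t : ℂ) • P) 0 0 (1 + (t : ℂ) • R) with hH₁
      set H₀ := fromBlocks (rdiag z) 0 0 (rdiag v) with hH₀
      set K := fromBlocks 0 (rdiag e) (-rdiag e) 0 with hK
      have hH₀' : H₀ = diagonal (fun i => ((Sum.elim z v i : ℝ) : ℂ)) := by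
        rw [hH₀, rdiag, rdiag, fromBlocks_diagonal]
        congr 1
        funext i; cases i <;> rfl
      have pd0 : H₀.PosDef := by
        rw [hH₀', Matrix.posDef_diagonal_iff]
        rintro (k | k) <;> simp [hz0, hv0]
      have pd1 : H₁.PosDef := by
        have : H₁ = 1 + (t : ℂ) • (fromBlocks C₁ 0 0 C₂ᴴ * (fromBlocks C₁ 0 0 C₂ᴴ)ᴴ) := by
          rw [hH₁, fromBlocks_conjTranspose, fromBlocks_multiply, fromBlocks_smul,
            ← fromBlocks_one, fromBlocks_add]
          simp [hPdef, hRdef]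
        rw [this]
        exact PosDef.one.add_posSemidef ((posSemidef_self_mul_conjTranspose _).smul ht')
      have hKs : Kᴴ = -K := by
        rw [hK, fromBlocks_conjTranspose, fromBlocks_neg]
        simp [rdiag_conjTranspose]
      set den : ι → ℝ := fun k => z k * v k + e k * e k with hdendef
      have hinv : (H₀ + K)⁻¹ = fromBlocks (rdiag fun k => v k / den k)
          (rdiag fun k => -e k / den k) (rdiag fun k => e k / den k)
          (rdiag fun k => z k / den k) := by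
        apply Matrix.inv_eq_right_inv
        rw [hH₀, hK, fromBlocks_add, fromBlocks_multiply, ← fromBlocks_one]
        simp only [add_zero, zero_add, Matrix.neg_mul, rdiag_mul]
        congr 1 <;>
        · ext i j
          by_cases h : i = j
          · subst h
            have := (hden i).ne'
            simp [rdiag, hdendef]
            norm_cast
            have hd : z i * v i + e i * e i ≠ 0 := (hden i).ne'
            first | linear_combination mul_inv_cancel₀ hd | ring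
          · simp [rdiag, h]
      have hE1 : ∀ k, (1 + (t : ℂ) • P - rdiag z) k k = 0 := fun k => by
        have := hP.1.coe_re_apply_self k
        simp only [rdiag, hz, hp, Matrix.sub_apply, Matrix.add_apply, Matrix.smul_apply,
          Matrix.one_apply_eq, Matrix.diagonal_apply_eq, smul_eq_mul]
        push_cast
        rw [show ((P k k).re : ℂ) = P k k from this]
        ring
      have hE2 : ∀ k, (1 + (t : ℂ) • R - rdiag v) k k = 0 := fun k => by
        have := hR.1.coe_re_apply_self k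
        simp only [rdiag, hv, hr, Matrix.sub_apply, Matrix.add_apply, Matrix.smul_apply,
          Matrix.one_apply_eq, Matrix.diagonal_apply_eq, smul_eq_mul]
        push_cast
        rw [show ((R k k).re : ℂ) = R k k from this]
        ring
      have hcrit : ((H₀ + K)⁻¹ * (H₁ - H₀)).trace.re = (H₀⁻¹ * (H₁ - H₀)).trace.re := by
        have hEd : ∀ i, (H₁ - H₀) i i = 0 := by
          rintro (k | k)
          · simpa [hH₁, hH₀] using hE1 k
          · simpa [hH₁, hH₀] using hE2 k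
        have hR0 : (H₀⁻¹ * (H₁ - H₀)).trace = 0 := by
          rw [hH₀', Matrix.inv_diagonal, ← hH₀']
          simp [Matrix.trace, Matrix.diagonal_mul, hEd]
        rw [hinv, hR0, hH₁, hH₀, sub_eq_add_neg, fromBlocks_neg, fromBlocks_add, fromBlocks_multiply, trace_blocks]
        simp only [← sub_eq_add_neg, Matrix.mul_zero, Matrix.zero_mul, add_zero, zero_add, neg_zero,
          sub_zero]
        simp only [trace_rdiag_mul _ _ hE1, trace_rdiag_mul _ _ hE2, Complex.zero_re, add_zero]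
      have hle := skewGain_le pd0 pd1 hKs hcrit
      have e1 : skewGain K H₁ = ldet σ t - ldet P t - ldet R t := by
        rw [skewGain, ldet, ldet, ldet, hσdef, det_blocks_eq d C₁ C₂ ht.le, hH₁, hK,
          fromBlocks_add, Matrix.det_fromBlocks_zero₂₁, norm_mul, Real.log_mul]
        · simp [← hPdef, ← hRdef]
          ring
        all_goals rw [norm_ne_zero_iff]
        · exact (PosDef.one.add_posSemidef (hP.smul ht')).det_pos.ne'
        · exact (PosDef.one.add_posSemidef (hR.smul ht')).det_pos.ne'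
      have e0 : skewGain K H₀ = ∑ k, (Real.log (den k) - Real.log (z k) - Real.log (v k)) := by
        letI : Invertible (rdiag v) := Matrix.invertibleOfIsUnitDet _ (by
          rw [rdiag, Matrix.det_diagonal, isUnit_iff_ne_zero, Finset.prod_ne_zero_iff]
          exact fun k _ => by exact_mod_cast (hv0 k).ne')
        have hvi : ⅟(rdiag v) = rdiag fun k => 1 / v k := by
          apply invOf_eq_right_inv
          ext i j
          by_cases h : i = j
          · subst h
            have : (v i : ℂ) ≠ 0 := by exact_mod_cast (hv0 i).ne'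
            simp [rdiag_mul, rdiag, this]
          · simp [rdiag_mul, rdiag, h]
        have dHK : (H₀ + K).det = ((∏ k, den k : ℝ) : ℂ) := by
          rw [hH₀, hK, fromBlocks_add]
          simp only [add_zero, zero_add]
          rw [Matrix.det_fromBlocks₂₂, hvi, Matrix.mul_neg, sub_neg_eq_add, rdiag_mul, rdiag_mul]
          simp only [rdiag, Matrix.diagonal_add, Matrix.det_diagonal, ← Finset.prod_mul_distrib,
            Complex.ofReal_prod]
          refine Finset.prod_congr rfl fun k _ => ?_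
          have := (hv0 k).ne'
          norm_cast
          simp [hdendef]
          field_simp
        have dH : H₀.det = ((∏ k, z k * v k : ℝ) : ℂ) := by
          rw [hH₀, Matrix.det_fromBlocks_zero₂₁]
          simp [rdiag, Finset.prod_mul_distrib]
        rw [skewGain, dHK, dH, Complex.norm_real, Complex.norm_real,
          Real.norm_of_nonneg (Finset.prod_nonneg fun k _ => (hden k).le),
          Real.norm_of_nonneg (Finset.prod_nonneg fun k _ => (mul_pos (hz0 k) (hv0 k)).le),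
          Real.log_prod fun k _ => (hden k).ne',
          Real.log_prod fun k _ => (mul_pos (hz0 k) (hv0 k)).ne', ← Finset.sum_sub_distrib]
        refine Finset.sum_congr rfl fun k _ => ?_
        rw [Real.log_mul (hz0 k).ne' (hv0 k).ne']
        ring
      have e2 : ∀ k, Real.log (den k) =
          Real.log (1 + t * ((u k + p k + r k + √((u k + p k + r k) ^ 2 - 4 * (p k * r k))) / 2)) +
          Real.log (1 + t * ((u k + p k + r k - √((u k + p k + r k) ^ 2 - 4 * (p k * r k))) / 2)) := by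
        intro k
        rw [pair_log (by linarith [hu0 k, hp0 k, hr0 k]) (mul_nonneg (hp0 k) (hr0 k))
          (tri_disc (hu0 k) (hp0 k) (hr0 k)) ht.le]
        congr 1
        simp only [hdendef, hz, hv, he, hu]
        linear_combination (d k * d k) * Real.mul_self_sqrt ht.le
      rw [e0, e1] at hle
      simp only [e2, hz, hv, Finset.sum_sub_distrib, Finset.sum_add_distrib] at hle
      simp only [Finset.sum_add_distrib, Finset.sum_neg_distrib]
      linarith)
  simp only [Fintype.sum_sum_type, Sum.elim_inl, Sum.elim_inr, one_mul, neg_mul,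
    Finset.sum_neg_distrib, ← ent_eq hP, ← ent_eq hR, Fintype.sum_prod_type, Fin.sum_univ_four,
    sg, pt] at key
  rw [← Fintype.sum_sum_type fun i => negMulLog (hσ.1.eigenvalues i), ← ent_eq hσ] at key
  simp only [Matrix.cons_val_zero, Matrix.cons_val_one, Matrix.cons_val, neg_mul, one_mul] at key
  have hs := triGain_sum Finset.univ u p r hu0 hp0 hr0
  simp only [triGain, pairEnt, Finset.sum_sub_distrib, Finset.sum_add_distrib,
    Finset.sum_neg_distrib] at hs key
  have eD : ent (rdiag d * (rdiag d)ᴴ) = ∑ k, negMulLog (u k) := by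
    rw [hdd]; exact ent_diagonal u hu0
  rw [excess, excess, excess, trD, trP, trR, eD, ent_mul_comm C₂, ← hRdef, pairEnt]
  linarith

lemma fromBlocks_isometry (U : Matrix ι κ ℂ) (hU : Uᴴ * U = 1) :
    (fromBlocks U 0 0 U)ᴴ * fromBlocks U 0 0 U = 1 := by
  simp [fromBlocks_conjTranspose, fromBlocks_multiply, hU]

theorem core_square (A C₁ C₂ : Matrix ι ι ℂ) :
    excess (A * Aᴴ) + excess (C₁ * C₁ᴴ) + excess (C₂ * C₂ᴴ) +
      pairEnt ((A * Aᴴ).trace.re + (C₁ * C₁ᴴ).trace.re + (C₂ * C₂ᴴ).trace.re)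
        ((C₁ * C₁ᴴ).trace.re * (C₂ * C₂ᴴ).trace.re) ≤
      ent (fromBlocks A C₁ C₂ 0 * (fromBlocks A C₁ C₂ 0)ᴴ) := by
  obtain ⟨U, V, d, hU, hV, -, hA⟩ := svd A
  have hU' : U * Uᴴ = 1 := mul_eq_one_comm.mp hU
  have hV' : V * Vᴴ = 1 := mul_eq_one_comm.mp hV
  have h := core_diag d (Uᴴ * C₁) (Uᴴ * C₂ * V)
  have h0 : A * Aᴴ = U * (rdiag d * (rdiag d)ᴴ) * Uᴴ := by
    rw [hA, ← rdiag]
    simp only [Matrix.conjTranspose_mul, Matrix.conjTranspose_conjTranspose, Matrix.mul_assoc]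
    rw [← Matrix.mul_assoc Vᴴ V, hV, Matrix.one_mul]
  have h1 : C₁ * C₁ᴴ = U * (Uᴴ * C₁ * (Uᴴ * C₁)ᴴ) * Uᴴ := by
    simp only [Matrix.conjTranspose_mul, Matrix.conjTranspose_conjTranspose, Matrix.mul_assoc]
    rw [hU', Matrix.mul_one, ← Matrix.mul_assoc U, hU', Matrix.one_mul]
  have h2 : C₂ * C₂ᴴ = U * (Uᴴ * C₂ * V * (Uᴴ * C₂ * V)ᴴ) * Uᴴ := by
    simp only [Matrix.conjTranspose_mul, Matrix.conjTranspose_conjTranspose, Matrix.mul_assoc]
    rw [← Matrix.mul_assoc V Vᴴ, hV', Matrix.one_mul, hU', Matrix.mul_one,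
      ← Matrix.mul_assoc U, hU', Matrix.one_mul]
  have hG : fromBlocks A C₁ C₂ 0 = fromBlocks U 0 0 U *
      (fromBlocks (rdiag d) (Uᴴ * C₁) (Uᴴ * C₂ * V) 0 * fromBlocks Vᴴ 0 0 1) := by
    simp only [fromBlocks_multiply, Matrix.mul_zero, Matrix.zero_mul, add_zero, zero_add,
      Matrix.mul_one, Matrix.mul_assoc, hV']
    rw [← Matrix.mul_assoc U Uᴴ, ← Matrix.mul_assoc U Uᴴ, hU', Matrix.one_mul, Matrix.one_mul,
      ← Matrix.mul_assoc, rdiag, ← hA]
  have hσ : fromBlocks A C₁ C₂ 0 * (fromBlocks A C₁ C₂ 0)ᴴ = fromBlocks U 0 0 U *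
      (fromBlocks (rdiag d) (Uᴴ * C₁) (Uᴴ * C₂ * V) 0 *
        (fromBlocks (rdiag d) (Uᴴ * C₁) (Uᴴ * C₂ * V) 0)ᴴ) * (fromBlocks U 0 0 U)ᴴ := by
    have hW : fromBlocks Vᴴ 0 0 (1 : Matrix ι ι ℂ) * (fromBlocks Vᴴ 0 0 1)ᴴ = 1 := by
      simp [fromBlocks_conjTranspose, fromBlocks_multiply, hV]
    rw [hG]
    simp only [Matrix.conjTranspose_mul, Matrix.mul_assoc]
    rw [← Matrix.mul_assoc (fromBlocks Vᴴ 0 0 1), hW, Matrix.one_mul]
  rw [hσ, ent_conj (posSemidef_self_mul_conjTranspose _) _ (fromBlocks_isometry U hU), h0, h1, h2,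
    excess_conj (posSemidef_self_mul_conjTranspose _) U hU,
    excess_conj (posSemidef_self_mul_conjTranspose _) U hU,
    excess_conj (posSemidef_self_mul_conjTranspose _) U hU, trace_conj U hU, trace_conj U hU,
    trace_conj U hU]
  exact h

theorem core_rect (A C₁ C₂ : Matrix ι κ ℂ) :
    excess (A * Aᴴ) + excess (C₁ * C₁ᴴ) + excess (C₂ * C₂ᴴ) +
      pairEnt ((A * Aᴴ).trace.re + (C₁ * C₁ᴴ).trace.re + (C₂ * C₂ᴴ).trace.re)
        ((C₁ * C₁ᴴ).trace.re * (C₂ * C₂ᴴ).trace.re) ≤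
      ent (fromBlocks A C₁ C₂ 0 * (fromBlocks A C₁ C₂ 0)ᴴ) := by
  set J : Matrix (ι ⊕ κ) ι ℂ := fromRows 1 0 with hJ
  set J' : Matrix (ι ⊕ κ) κ ℂ := fromRows 0 1 with hJ'
  have hJ1 : Jᴴ * J = 1 := by
    simp [hJ, conjTranspose_fromRows_eq_fromCols_conjTranspose, fromCols_mul_fromRows]
  have hJ2 : J'ᴴ * J' = 1 := by
    simp [hJ', conjTranspose_fromRows_eq_fromCols_conjTranspose, fromCols_mul_fromRows]
  have hp : ∀ M : Matrix ι κ ℂ,
      (J * M * J'ᴴ) * (J * M * J'ᴴ)ᴴ = J * (M * Mᴴ) * Jᴴ := by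
    intro M
    simp only [Matrix.conjTranspose_mul, Matrix.conjTranspose_conjTranspose, Matrix.mul_assoc]
    rw [← Matrix.mul_assoc J'ᴴ, hJ2, Matrix.one_mul]
  have h := core_square (J * A * J'ᴴ) (J * C₁ * J'ᴴ) (J * C₂ * J'ᴴ)
  have hG : fromBlocks (J * A * J'ᴴ) (J * C₁ * J'ᴴ) (J * C₂ * J'ᴴ) 0 =
      fromBlocks J 0 0 J * fromBlocks A C₁ C₂ 0 * (fromBlocks J' 0 0 J')ᴴ := by
    simp [fromBlocks_conjTranspose, fromBlocks_multiply]
  have hσ : fromBlocks J 0 0 J * fromBlocks A C₁ C₂ 0 * (fromBlocks J' 0 0 J')ᴴ *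
      (fromBlocks J 0 0 J * fromBlocks A C₁ C₂ 0 * (fromBlocks J' 0 0 J')ᴴ)ᴴ =
      fromBlocks J 0 0 J * (fromBlocks A C₁ C₂ 0 * (fromBlocks A C₁ C₂ 0)ᴴ) *
        (fromBlocks J 0 0 J)ᴴ := by
    simp only [Matrix.conjTranspose_mul, Matrix.conjTranspose_conjTranspose, Matrix.mul_assoc]
    rw [← Matrix.mul_assoc (fromBlocks J' 0 0 J')ᴴ, fromBlocks_isometry J' hJ2, Matrix.one_mul]
  rw [hp, hp, hp, excess_conj (posSemidef_self_mul_conjTranspose _) J hJ1,
    excess_conj (posSemidef_self_mul_conjTranspose _) J hJ1,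
    excess_conj (posSemidef_self_mul_conjTranspose _) J hJ1, trace_conj J hJ1, trace_conj J hJ1,
    trace_conj J hJ1, hG, hσ,
    ent_conj (posSemidef_self_mul_conjTranspose _) _ (fromBlocks_isometry J hJ1)] at h
  exact h

/-- The inequality for one piece, in scaled form. -/
theorem piece (A C : Matrix ι κ ℂ) {x y z : ℝ} (hx : 0 ≤ x) (hy : 0 ≤ y) (hz : 0 ≤ z) :
    x * excess (A * Aᴴ) + (y + z) * excess (C * Cᴴ) +
      pairEnt (x * (A * Aᴴ).trace.re + y * (C * Cᴴ).trace.re + z * (C * Cᴴ).trace.re)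
        (y * (C * Cᴴ).trace.re * (z * (C * Cᴴ).trace.re)) ≤
    ent (fromBlocks ((x : ℂ) • (A * Aᴴ) + (y : ℂ) • (C * Cᴴ))
      (((√x * √z : ℝ) : ℂ) • (A * Cᴴ)) (((√x * √z : ℝ) : ℂ) • (C * Aᴴ)) ((z : ℂ) • (C * Cᴴ))) := by
  have h := core_rect ((√x : ℂ) • A) ((√y : ℂ) • C) ((√z : ℂ) • C)
  have e : ∀ (c e : ℝ) (M N : Matrix ι κ ℂ),
      ((c : ℂ) • M) * ((e : ℂ) • N)ᴴ = ((c * e : ℝ) : ℂ) • (M * Nᴴ) := by
    intro c e M N
    rw [Matrix.conjTranspose_smul, Complex.star_def, Complex.conj_ofReal, Matrix.smul_mul,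
      Matrix.mul_smul, smul_smul, Complex.ofReal_mul]
  have hG : fromBlocks ((√x : ℂ) • A) ((√y : ℂ) • C) ((√z : ℂ) • C) 0 *
      (fromBlocks ((√x : ℂ) • A) ((√y : ℂ) • C) ((√z : ℂ) • C) 0)ᴴ =
      fromBlocks ((x : ℂ) • (A * Aᴴ) + (y : ℂ) • (C * Cᴴ))
      (((√x * √z : ℝ) : ℂ) • (A * Cᴴ)) (((√x * √z : ℝ) : ℂ) • (C * Aᴴ))
      ((z : ℂ) • (C * Cᴴ)) := by
    rw [fromBlocks_conjTranspose, fromBlocks_multiply]
    simp only [Matrix.conjTranspose_zero, Matrix.mul_zero, Matrix.zero_mul, add_zero, e,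
      Real.mul_self_sqrt hx, Real.mul_self_sqrt hy, Real.mul_self_sqrt hz, mul_comm √z √x]
  rw [e, e, e, Real.mul_self_sqrt hx, Real.mul_self_sqrt hy, Real.mul_self_sqrt hz,
    excess_smul (posSemidef_self_mul_conjTranspose A) hx,
    excess_smul (posSemidef_self_mul_conjTranspose C) hy,
    excess_smul (posSemidef_self_mul_conjTranspose C) hz, hG] at h
  simp only [Matrix.trace_smul, smul_eq_mul, Complex.re_ofReal_mul] at h
  linarith

lemma ent_swap {X Y Z W : Matrix ι ι ℂ} (h : (fromBlocks X Y Z W).PosSemidef) :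
    ent (fromBlocks W Z Y X) = ent (fromBlocks X Y Z W) := by
  have := ent_conj h (fromBlocks 0 (1 : Matrix ι ι ℂ) (1 : Matrix ι ι ℂ) 0)
    (by simp [fromBlocks_conjTranspose, fromBlocks_multiply, fromBlocks_one])
  simpa [fromBlocks_conjTranspose, fromBlocks_multiply] using this

lemma piece_psd (A C : Matrix ι κ ℂ) {x y z : ℝ} (hx : 0 ≤ x) (hy : 0 ≤ y) (hz : 0 ≤ z) :
    (fromBlocks ((x : ℂ) • (A * Aᴴ) + (y : ℂ) • (C * Cᴴ))
      (((√x * √z : ℝ) : ℂ) • (A * Cᴴ)) (((√x * √z : ℝ) : ℂ) • (C * Aᴴ))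
      ((z : ℂ) • (C * Cᴴ))).PosSemidef := by
  have := posSemidef_self_mul_conjTranspose
    (fromBlocks ((√x : ℂ) • A) ((√y : ℂ) • C) ((√z : ℂ) • C) 0)
  simpa [fromBlocks_conjTranspose, fromBlocks_multiply, Matrix.conjTranspose_smul, smul_smul,
    ← Complex.ofReal_mul, Real.mul_self_sqrt hx, Real.mul_self_sqrt hy, Real.mul_self_sqrt hz,
    mul_comm √z √x] using this

end

end Vale.Agent.P358
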