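import Vale.Agent.P358.Analysis

/-!
# The upper bound and the ensemble attaining it
-/

namespace Vale.Agent.P358

open scoped ComplexOrder
open Matrix Real

noncomputable section

lemma sum_prod_mul_sum {n : ℕ} (f g : Fin n → Fin 2 → ℝ) (hf : ∀ i, ∑ c, f i c = 1) :
    ∑ x : Fin n → Fin 2, (∏ i, f i (x i)) * ∑ i, g i (x i) = ∑ i, ∑ c, f i c * g i c := by
  induction n with
  | zero => simp
  | succ n ih =>
    have h1 : ∑ x : Fin n → Fin 2, ∏ i, f i.succ (x i) = 1 := by
      rw [← Fintype.prod_sum fun (i : Fin n) c => f i.succ c]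
      exact Finset.prod_eq_one fun i _ => hf _
    have h2 := ih (fun i => f i.succ) (fun i => g i.succ) (fun i => hf _)
    rw [sum_cons, Fin.sum_univ_succ (f := fun i => ∑ c, f i c * g i c)]
    simp only [Fin.prod_univ_succ, Fin.sum_univ_succ (n := n), Fin.cons_zero, Fin.cons_succ,
      mul_add, Finset.sum_add_distrib, mul_assoc, ← Finset.mul_sum, h2]
    congr 1
    · refine Finset.sum_congr rfl fun c _ => ?_
      rw [← Finset.sum_mul, h1, one_mul]
    · rw [← Finset.sum_mul, hf 0, one_mul]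

lemma negMulLog_prod {β : Type*} (s : Finset β) (f : β → ℝ) :
    negMulLog (∏ i ∈ s, f i) = (∏ i ∈ s, f i) * ∑ i ∈ s, -Real.log (f i) := by
  by_cases h : ∀ i ∈ s, f i ≠ 0
  · rw [negMulLog, Real.log_prod h, Finset.sum_neg_distrib]; ring
  · push Not at h
    obtain ⟨i, hi, h0⟩ := h
    simp [Finset.prod_eq_zero hi h0]

lemma sum_negMulLog_prod {n : ℕ} (f : Fin n → Fin 2 → ℝ) (hf : ∀ i, ∑ c, f i c = 1) :
    ∑ x : Fin n → Fin 2, negMulLog (∏ i, f i (x i)) = ∑ i, ∑ c, negMulLog (f i c) := by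
  simp only [negMulLog_prod]
  rw [sum_prod_mul_sum f (fun i c => -Real.log (f i c)) hf]
  simp [negMulLog]

lemma gibbs_term {P m : ℝ} (hP : 0 ≤ P) (hm : 0 ≤ m) (h : m = 0 → P = 0) :
    negMulLog P ≤ P * -Real.log m + (m - P) := by
  rcases eq_or_lt_of_le hP with h0 | h0
  · subst h0; simpa using hm
  · have hm' : 0 < m := lt_of_le_of_ne hm fun e => h0.ne' (h e.symm)
    have := mul_le_mul_of_nonneg_left (Real.log_le_sub_one_of_pos (div_pos hm' h0)) hP
    rw [Real.log_div hm'.ne' h0.ne', show P * (m / P - 1) = m - P by field_simp] at this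
    simp only [negMulLog]
    linarith

lemma eigen_decomp {ι : Type*} [Fintype ι] [DecidableEq ι] {ρ : Matrix ι ι ℂ}
    (hρ : ρ.IsHermitian) :
    ρ = ∑ j, (hρ.eigenvalues j : ℂ) • Matrix.vecMulVec
      (fun i => (hρ.eigenvectorUnitary : Matrix ι ι ℂ) i j)
      (star fun i => (hρ.eigenvectorUnitary : Matrix ι ι ℂ) i j) := by
  conv_lhs => rw [spectral ρ hρ]
  ext a b
  rw [Matrix.mul_apply]
  simp only [Matrix.mul_diagonal, Matrix.conjTranspose_apply, Matrix.sum_apply,
    Matrix.smul_apply, Matrix.vecMulVec_apply, Pi.star_apply, smul_eq_mul]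
  exact Finset.sum_congr rfl fun j _ => by ring

variable {γ ν : ℝ} {n : ℕ}

lemma out_psd (hγ : γ ∈ Set.Icc (0 : ℝ) 1) (hν : ν ∈ Set.Icc (0 : ℝ) 1)
    {ρ : Matrix (Fin n → Fin 2) (Fin n → Fin 2) ℂ} (hρ : ρ.PosSemidef) :
    (tensorPower (gad γ ν) n ρ).PosSemidef := by
  rw [eigen_decomp hρ.1, tensorPower_sum]
  refine Matrix.posSemidef_sum _ fun j _ => ?_
  rw [tensorPower_outer hγ hν]
  exact (posSemidef_self_mul_conjTranspose _).smul (by exact_mod_cast hρ.eigenvalues_nonneg j)

lemma out_ent_ge (hγ : γ ∈ Set.Icc (0 : ℝ) 1) (hν : ν ∈ Set.Icc (0 : ℝ) 1) {q : ℝ} {L : Fin 2 → ℝ}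
    (hc : Certificate γ ν q L) {ρ : Matrix (Fin n → Fin 2) (Fin n → Fin 2) ℂ} (hρ : IsDensity ρ) :
    ∑ y, (ρ y y).re * ∑ i, L (y i) ≤ ent (tensorPower (gad γ ν) n ρ) := by
  set U := (hρ.1.1.eigenvectorUnitary : Matrix (Fin n → Fin 2) (Fin n → Fin 2) ℂ) with hU
  set a := hρ.1.1.eigenvalues with ha
  have hU1 : Uᴴ * U = 1 := Matrix.UnitaryGroup.star_mul_self hρ.1.1.eigenvectorUnitary
  have hsum : ∑ j, a j = 1 := by
    rw [ha, ← trace_re_eq_sum hρ.1, hρ.2, Complex.one_re]
  conv_rhs => rw [eigen_decomp hρ.1.1, tensorPower_sum]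
  simp only [tensorPower_outer hγ hν, ← hU, ← ha]
  refine le_trans ?_ (ent_concave a _ (fun j => hρ.1.eigenvalues_nonneg j) hsum
    fun j => posSemidef_self_mul_conjTranspose _)
  have hcol : ∀ j, ∑ y, Complex.normSq (U y j) = 1 := by
    intro j
    have := congrArg Complex.re (congrFun (congrFun hU1 j) j)
    simpa [Matrix.mul_apply, Complex.normSq_apply] using this
  calc ∑ y, (ρ y y).re * ∑ i, L (y i)
      = ∑ j, a j * ∑ y, Complex.normSq (U y j) * ∑ i, L (y i) := by
        simp only [diag_eq_sum hρ.1.1, ← hU, ← ha, Finset.sum_mul]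
        rw [Finset.sum_comm]
        simp only [Finset.mul_sum]
        exact Finset.sum_congr rfl fun j _ => Finset.sum_congr rfl fun y _ =>
          Finset.sum_congr rfl fun i _ => by ring
    _ ≤ _ := Finset.sum_le_sum fun j _ => by
        refine mul_le_mul_of_nonneg_left ?_ (hρ.1.eigenvalues_nonneg j)
        refine (excess_ge hγ hν L hc.2.1 n (fun y => U y j)).trans (le_of_eq ?_)
        rw [excess, krausImage_trace hγ hν, hcol, negMulLog_one, sub_zero]

lemma out_diag (ρ : Matrix (Fin n → Fin 2) (Fin n → Fin 2) ℂ) (x : Fin n → Fin 2) :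
    (tensorPower (gad γ ν) n ρ x x).re =
      ∑ y, (∏ i, trans γ ν (x i) (y i)) * (ρ y y).re := by
  have hs : ∀ a b c : Fin 2, gad γ ν (Matrix.single a b 1) c c =
      if a = b then ((trans γ ν c a : ℝ) : ℂ) else 0 := by
    intro a b c
    fin_cases a <;> fin_cases b <;> fin_cases c <;>
      simp [gad, trans, tOut, Matrix.single_apply] <;> ring
  simp only [tensorPower, Matrix.of_apply, hs, Complex.re_sum]
  refine Finset.sum_congr rfl fun a _ => ?_
  rw [Finset.sum_eq_single a]
  · simp only [if_true, ← Complex.ofReal_prod, Complex.re_ofReal_mul]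
  · intro b _ hb
    obtain ⟨i, hi⟩ := Function.ne_iff.mp hb
    rw [Finset.prod_eq_zero (Finset.mem_univ i) (if_neg (Ne.symm hi))]
    simp
  · simp

theorem upper_bound (hγ : γ ∈ Set.Icc (0 : ℝ) 1) (hν : ν ∈ Set.Icc (0 : ℝ) 1) {q : ℝ}
    {L : Fin 2 → ℝ} (hc : Certificate γ ν q L) {v : ℝ} (hv : v ∈ holevoValues (gad γ ν) n) :
    v ≤ n * objective γ ν q / Real.log 2 := by
  obtain ⟨k, p, ρ, hp, hp1, hρ, rfl⟩ := hv
  simp only [vonNeumann_eq, mul_div_assoc', ← Finset.sum_div, ← sub_div]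
  refine div_le_div_of_nonneg_right ?_ (Real.log_nonneg one_le_two)
  rw [← tensorPower_sum]
  set ρm := ∑ a, (p a : ℂ) • ρ a with hρm
  have hm : ρm.PosSemidef :=
    Matrix.posSemidef_sum _ fun a _ => (hρ a).1.smul (by exact_mod_cast hp a)
  have hmt : ρm.trace = 1 := by
    rw [hρm, Matrix.trace_sum]
    simp only [Matrix.trace_smul, (hρ _).2, smul_eq_mul, mul_one, ← Complex.ofReal_sum, hp1,
      Complex.ofReal_one]
  set s := refDist (tOut γ ν q) with hs
  have htI := tOut_mem hγ hν hc.1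
  have hs0 : ∀ c, 0 ≤ s c := by
    intro c; fin_cases c <;> simp [hs, refDist] <;> linarith [htI.1, htI.2]
  have hs1 : ∑ c, s c = 1 := by simp [hs, refDist, Fin.sum_univ_two]
  set P : (Fin n → Fin 2) → ℝ := fun x => (tensorPower (gad γ ν) n ρm x x).re with hP
  have hP0 : ∀ x, 0 ≤ P x := fun x =>
    (Complex.nonneg_iff.mp (out_psd hγ hν hm).diag_nonneg).1
  have hP1 : ∑ x, P x = 1 := by
    have := congrArg Complex.re ((trace_tensorPower γ ν ρm).trans hmt)
    simpa [Matrix.trace, hP] using this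
  have hm1 : ∑ x : Fin n → Fin 2, ∏ i, s (x i) = 1 := by
    rw [← Fintype.prod_sum fun (_ : Fin n) c => s c]
    exact Finset.prod_eq_one fun _ _ => hs1
  have hg : ∀ x, negMulLog (P x) ≤
      P x * (∑ i, -Real.log (s (x i))) + ((∏ i, s (x i)) - P x) := by
    intro x
    have hz : ∀ i, s (x i) = 0 → P x = 0 := by
      intro i hi
      simp only [hP, out_diag]
      exact Finset.sum_eq_zero fun y _ => by
        rw [Finset.prod_eq_zero (Finset.mem_univ i) (hc.2.2.1 _ _ hi), zero_mul]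
    by_cases h : ∀ i, s (x i) ≠ 0
    · have := gibbs_term (hP0 x) (Finset.prod_nonneg (s := Finset.univ) fun i _ => hs0 (x i))
        (fun e => absurd e (Finset.prod_ne_zero_iff.mpr fun i _ => h i))
      rwa [Real.log_prod (fun i _ => h i), ← Finset.sum_neg_distrib] at this
    · push Not at h
      obtain ⟨i, hi⟩ := h
      rw [hz i hi, negMulLog_zero, zero_mul, zero_add, sub_zero]
      exact Finset.prod_nonneg fun i _ => hs0 (x i)
  have h1 : ent (tensorPower (gad γ ν) n ρm) ≤ ∑ x, P x * (∑ i, -Real.log (s (x i))) := by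
    refine ((ent_le_diag (out_psd hγ hν hm)).trans (Finset.sum_le_sum fun x _ => hg x)).trans
      (le_of_eq ?_)
    rw [Finset.sum_add_distrib, Finset.sum_sub_distrib, hm1, hP1, sub_self, add_zero]
  have h2 : ∑ x, P x * (∑ i, -Real.log (s (x i))) ≤
      n * objective γ ν q + ∑ y, (ρm y y).re * ∑ i, L (y i) := by
    have e : ∑ x, P x * (∑ i, -Real.log (s (x i))) =
        ∑ y, (ρm y y).re * ∑ i, ∑ c, trans γ ν c (y i) * -Real.log (s c) := by
      simp only [hP, out_diag, Finset.sum_mul]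
      rw [Finset.sum_comm]
      refine Finset.sum_congr rfl fun y _ => ?_
      rw [← sum_prod_mul_sum (fun i c => trans γ ν c (y i)) (fun _ c => -Real.log (s c))
        (fun i => by simp [trans, Fin.sum_univ_two]), Finset.mul_sum]
      exact Finset.sum_congr rfl fun x _ => by ring
    rw [e]
    have hsum : ∑ y, (ρm y y).re = 1 := by
      have := congrArg Complex.re hmt
      simpa [Matrix.trace] using this
    calc _ ≤ ∑ y, (ρm y y).re * ∑ i, (objective γ ν q + L (y i)) :=
          Finset.sum_le_sum fun y _ => mul_le_mul_of_nonneg_left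
            (Finset.sum_le_sum fun i _ => by
              have := hc.2.2.2 (y i)
              simpa [mul_neg, Finset.sum_neg_distrib, hs] using this)
            (Complex.nonneg_iff.mp hm.diag_nonneg).1
      _ = _ := by
          simp only [Finset.sum_add_distrib, Finset.sum_const, Finset.card_univ, Fintype.card_fin,
            nsmul_eq_mul, mul_add, ← Finset.sum_mul, hsum, one_mul]
  have h3 : ∑ y, (ρm y y).re * ∑ i, L (y i) ≤
      ∑ a, p a * ent (tensorPower (gad γ ν) n (ρ a)) := by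
    calc ∑ y, (ρm y y).re * ∑ i, L (y i)
        = ∑ a, p a * ∑ y, (ρ a y y).re * ∑ i, L (y i) := by
          simp only [hρm, Matrix.sum_apply, Matrix.smul_apply, smul_eq_mul, Complex.re_sum,
            Complex.re_ofReal_mul, Finset.sum_mul]
          rw [Finset.sum_comm]
          simp only [Finset.mul_sum, mul_assoc]
      _ ≤ _ := Finset.sum_le_sum fun a _ =>
          mul_le_mul_of_nonneg_left (out_ent_ge hγ hν hc (hρ a)) (hp a)
  linarith

lemma kron_mul (M N : Fin n → Matrix (Fin 2) (Fin 2) ℂ) :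
    kron M * kron N = kron fun i => M i * N i := by
  ext x y
  simp only [Matrix.mul_apply, kron, Matrix.of_apply, Fintype.prod_sum, Finset.prod_mul_distrib]

lemma kron_conjTranspose (M : Fin n → Matrix (Fin 2) (Fin 2) ℂ) :
    (kron M)ᴴ = kron fun i => (M i)ᴴ := by
  ext x y
  simp [kron, Matrix.conjTranspose_apply, star_prod]

lemma kron_diagonal (d : Fin n → Fin 2 → ℂ) :
    (kron fun i => Matrix.diagonal (d i)) = Matrix.diagonal fun x => ∏ i, d i (x i) := by
  ext x y
  by_cases h : x = y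
  · subst h; simp [kron]
  · obtain ⟨i, hi⟩ := Function.ne_iff.mp h
    simp only [kron, Matrix.of_apply, Matrix.diagonal_apply_ne _ h]
    exact Finset.prod_eq_zero (Finset.mem_univ i) (Matrix.diagonal_apply_ne _ hi)

lemma kron_one : (kron fun _ : Fin n => (1 : Matrix (Fin 2) (Fin 2) ℂ)) = 1 := by
  have := kron_diagonal (n := n) fun _ _ => 1
  simpa using this

lemma ent_kron (M : Fin n → Matrix (Fin 2) (Fin 2) ℂ) (hM : ∀ i, (M i).PosSemidef)
    (ht : ∀ i, (M i).trace = 1) : ent (kron M) = ∑ i, ent (M i) := by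
  set U : Fin n → Matrix (Fin 2) (Fin 2) ℂ :=
    fun i => ((hM i).1.eigenvectorUnitary : Matrix (Fin 2) (Fin 2) ℂ) with hU
  set d : Fin n → Fin 2 → ℝ := fun i => (hM i).1.eigenvalues with hd
  have hU1 : (kron U)ᴴ * kron U = 1 := by
    rw [kron_conjTranspose, kron_mul, ← kron_one]
    congr 1
    funext i
    exact Matrix.UnitaryGroup.star_mul_self (hM i).1.eigenvectorUnitary
  have e : kron M = kron U * Matrix.diagonal (fun x => ((∏ i, d i (x i) : ℝ) : ℂ)) * (kron U)ᴴ := by
    simp only [Complex.ofReal_prod]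
    rw [← kron_diagonal (fun i c => (d i c : ℂ)), kron_conjTranspose, kron_mul, kron_mul]
    congr 1
    funext i
    exact spectral _ (hM i).1
  have h0 : ∀ x : Fin n → Fin 2, 0 ≤ ∏ i, d i (x i) :=
    fun x => Finset.prod_nonneg fun i _ => (hM i).eigenvalues_nonneg _
  rw [e, ent_conj (Matrix.posSemidef_diagonal_iff.mpr fun x => by exact_mod_cast h0 x) _ hU1,
    ent_diagonal _ h0, sum_negMulLog_prod d fun i => by
      rw [hd, ← trace_re_eq_sum (hM i), ht i, Complex.one_re]]
  simp [ent_eq (hM _), hd]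

/-- The signal vectors. -/
def signal (q : ℝ) (b : Fin 2) : Fin 2 → ℂ :=
  ![(√(1 - q) : ℂ), (((![1, -1] b : ℝ) * √q : ℝ) : ℂ)]

/-- The output for a signal vector. -/
def signalOut (γ ν q : ℝ) (b : Fin 2) : Matrix (Fin 2) (Fin 2) ℂ :=
  gad γ ν (Matrix.vecMulVec (signal q b) (star (signal q b)))

lemma signalOut_facts (hγ : γ ∈ Set.Icc (0 : ℝ) 1) (hν : ν ∈ Set.Icc (0 : ℝ) 1) {q : ℝ}
    (hq : q ∈ Set.Icc (0 : ℝ) 1) (b : Fin 2) :
    (signalOut γ ν q b).PosSemidef ∧ (signalOut γ ν q b).trace = 1 ∧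
      ent (signalOut γ ν q b) = gEnt γ ν q := by
  have h1 : √(1 - q) * √(1 - q) = 1 - q := Real.mul_self_sqrt (by linarith [hq.2])
  have h2 : √q * √q = q := Real.mul_self_sqrt hq.1
  have hg : √(1 - γ) * √(1 - γ) = 1 - γ := Real.mul_self_sqrt (by linarith [hγ.2])
  obtain ⟨sb, hsb, hsb2⟩ : ∃ sb : ℝ, sb = ![1, -1] b ∧ sb * sb = 1 :=
    ⟨_, rfl, by fin_cases b <;> simp⟩
  set c := √(1 - γ) * (√(1 - q) * (sb * √q)) with hc
  have e : signalOut γ ν q b = !![((1 - tOut γ ν q : ℝ) : ℂ), (c : ℂ);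
      (c : ℂ), ((tOut γ ν q : ℝ) : ℂ)] := by
    have e1 : (sb * √q) * (sb * √q) = q := by linear_combination (√q * √q) * hsb2 + h2
    ext i j
    fin_cases i <;> fin_cases j <;>
      simp [signalOut, gad, signal, ← hsb, Matrix.vecMulVec_apply, ← Complex.ofReal_mul,
        h1, e1, hc, tOut] <;> first | ring1 | (push_cast; ring1) | (left; ring1)
  have hH : (signalOut γ ν q b).IsHermitian := by
    rw [e]; ext i j
    fin_cases i <;> fin_cases j <;> simp
  have hsum : hH.eigenvalues 0 + hH.eigenvalues 1 = 1 := by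
    have := congrArg Complex.re hH.trace_eq_sum_eigenvalues
    rw [show (signalOut γ ν q b).trace = 1 by rw [e, Matrix.trace_fin_two_of]; simp] at this
    simpa [Fin.sum_univ_two] using this.symm
  have hprod : hH.eigenvalues 0 * hH.eigenvalues 1 = dOut γ ν q := by
    have := congrArg Complex.re hH.det_eq_prod_eigenvalues
    rw [Fin.prod_univ_two] at this
    rw [show (signalOut γ ν q b).det = ((tOut γ ν q * (1 - tOut γ ν q) - c * c : ℝ) : ℂ) by
      rw [e, Matrix.det_fin_two_of]; push_cast; ring] at this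
    simp at this
    rw [← this, hc, dOut]
    linear_combination -(√(1 - q) * √(1 - q) * (sb * sb) * (√q * √q)) * hg
      - (1 - γ) * ((sb * sb) * (√q * √q)) * h1 - (1 - γ) * (1 - q) * (√q * √q) * hsb2
      - (1 - γ) * (1 - q) * h2
  have hpos := dOut_nonneg hγ hν hq
  have hpsd : (signalOut γ ν q b).PosSemidef := by
    rw [hH.posSemidef_iff_eigenvalues_nonneg]
    intro i
    fin_cases i <;> simp <;> nlinarith [hsum, hprod]
  refine ⟨hpsd, ?_, ?_⟩
  · rw [e, Matrix.trace_fin_two_of]; simp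
  · rw [ent_eq hpsd, Fin.sum_univ_two, gEnt, ← hsum, ← hprod,
      pairEnt_split (hpsd.eigenvalues_nonneg 0) (hpsd.eigenvalues_nonneg 1)]

theorem attained (hγ : γ ∈ Set.Icc (0 : ℝ) 1) (hν : ν ∈ Set.Icc (0 : ℝ) 1) {q : ℝ}
    (hq : q ∈ Set.Icc (0 : ℝ) 1) (n : ℕ) :
    (n : ℝ) * objective γ ν q / Real.log 2 ∈ holevoValues (gad γ ν) n := by
  let e := (Fintype.equivFin (Fin n → Fin 2)).symm
  let ρ : (Fin n → Fin 2) → Matrix (Fin n → Fin 2) (Fin n → Fin 2) ℂ := fun s =>
    kron fun i => Matrix.vecMulVec (signal q (s i)) (star (signal q (s i)))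
  refine ⟨_, fun _ => (1 / 2) ^ n, fun a => ρ (e a), fun _ => by positivity, ?_, ?_, ?_⟩
  · simp [← mul_pow]
  · intro a
    show IsDensity (ρ (e a))
    constructor
    · have : ρ (e a) = Matrix.vecMulVec (fun x => ∏ i, signal q (e a i) (x i))
          (star fun x => ∏ i, signal q (e a i) (x i)) := by
        ext x y
        simp [ρ, kron, Matrix.vecMulVec_apply, star_prod, Finset.prod_mul_distrib]
      rw [this]
      exact Matrix.posSemidef_vecMulVec_self_star _
    · simp only [Matrix.trace, Matrix.diag, ρ, kron, Matrix.of_apply]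
      rw [← Fintype.prod_sum fun i c =>
        Matrix.vecMulVec (signal q (e a i)) (star (signal q (e a i))) c c]
      refine Finset.prod_eq_one fun i _ => ?_
      generalize e a i = b
      have h1 : √(1 - q) * √(1 - q) = 1 - q := Real.mul_self_sqrt (by linarith [hq.2])
      have h2 : √q * √q = q := Real.mul_self_sqrt hq.1
      fin_cases b <;> simp [signal, Matrix.vecMulVec_apply, Fin.sum_univ_two, ← Complex.ofReal_mul,
        ← Complex.ofReal_neg, ← Complex.ofReal_add, h1, h2]
  · have hout : ∀ s, tensorPower (gad γ ν) n (ρ s) = kron fun i => signalOut γ ν q (s i) :=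
      fun s => tensorPower_kron γ ν _
    have hent : ∀ s, ent (tensorPower (gad γ ν) n (ρ s)) = n * gEnt γ ν q := by
      intro s
      rw [hout, ent_kron _ (fun i => (signalOut_facts hγ hν hq _).1)
        (fun i => (signalOut_facts hγ hν hq _).2.1)]
      simp [(signalOut_facts hγ hν hq _).2.2]
    have havg : ∑ a, (((1 / 2 : ℝ) ^ n : ℝ) : ℂ) • tensorPower (gad γ ν) n (ρ (e a)) =
        Matrix.diagonal fun x => ((∏ i, refDist (tOut γ ν q) (x i) : ℝ) : ℂ) := by
      rw [e.sum_comp fun s => (((1 / 2 : ℝ) ^ n : ℝ) : ℂ) • tensorPower (gad γ ν) n (ρ s)]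
      simp only [Complex.ofReal_prod, hout]
      rw [← kron_diagonal fun (_ : Fin n) c => ((refDist (tOut γ ν q) c : ℝ) : ℂ)]
      have hb : ∀ c d, ∑ b, ((1 / 2 : ℝ) : ℂ) * signalOut γ ν q b c d =
          Matrix.diagonal (fun c => ((refDist (tOut γ ν q) c : ℝ) : ℂ)) c d := by
        have h1 : √(1 - q) * √(1 - q) = 1 - q := Real.mul_self_sqrt (by linarith [hq.2])
        have h2 : √q * √q = q := Real.mul_self_sqrt hq.1
        intro c d
        fin_cases c <;> fin_cases d <;>
          simp [Fin.sum_univ_two, signalOut, gad, signal, refDist, Matrix.vecMulVec_apply, tOut,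
            ← Complex.ofReal_mul, h1, h2] <;> first | ring1 | (push_cast; ring1)
      ext x y
      simp only [Matrix.sum_apply, Matrix.smul_apply, kron, Matrix.of_apply, smul_eq_mul, ← hb,
        Fintype.prod_sum, Finset.prod_mul_distrib, Finset.prod_const, Finset.card_univ,
        Fintype.card_fin, Complex.ofReal_pow]
    have ht := tOut_mem hγ hν hq
    simp only [vonNeumann_eq, hent, havg]
    rw [ent_diagonal _ (fun x => Finset.prod_nonneg fun i _ => by
      generalize x i = c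
      fin_cases c <;> simp [refDist] <;> linarith [ht.1, ht.2]),
      sum_negMulLog_prod (fun _ => refDist (tOut γ ν q)) (fun _ => by simp [refDist, Fin.sum_univ_two])]
    simp [objective, refDist, Fin.sum_univ_two, binEntropy_eq_negMulLog_add_negMulLog_one_sub,
      ← mul_pow]
    ring

theorem main_theorem (hγ : γ ∈ Set.Icc (0 : ℝ) 1) (hν : ν ∈ Set.Icc (0 : ℝ) 1) :
    (∀ n : ℕ, IsGreatest (holevoValues (gad γ ν) n) (n * capValue γ ν)) ∧
    (∀ n : ℕ, holevo (gad γ ν) n = n * holevo (gad γ ν) 1) ∧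
    capacity (gad γ ν) = holevo (gad γ ν) 1 ∧ capacity (gad γ ν) = capValue γ ν := by
  obtain ⟨q, L, hc⟩ := certificate_exists hγ hν
  have hcap : capValue γ ν = objective γ ν q / Real.log 2 := by
    rw [capValue_eq]
    refine IsGreatest.csSup_eq ⟨Set.mem_image_of_mem _ hc.1, ?_⟩
    rintro _ ⟨p, hp, rfl⟩
    simpa using upper_bound hγ hν hc (attained hγ hν hp 1)
  have hG : ∀ n : ℕ, IsGreatest (holevoValues (gad γ ν) n) (n * capValue γ ν) := fun n => by
    rw [hcap, ← mul_div_assoc]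
    exact ⟨attained hγ hν hc.1 n, fun v hv => upper_bound hγ hν hc hv⟩
  have hh : ∀ n : ℕ, holevo (gad γ ν) n = n * capValue γ ν := fun n => (hG n).csSup_eq
  have hC : capacity (gad γ ν) = capValue γ ν := by
    have : ∀ n : ℕ, holevo (gad γ ν) (n + 1) / ((n + 1 : ℕ) : ℝ) = capValue γ ν := fun n => by
      rw [hh, mul_div_cancel_left₀ _ (Nat.cast_ne_zero.mpr n.succ_ne_zero)]
    rw [capacity, funext this]
    exact ciSup_const
  have h1 : holevo (gad γ ν) 1 = capValue γ ν := by simpa using hh 1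
  exact ⟨hG, fun n => by rw [hh, h1], hC.trans h1.symm, hC⟩

end

end Vale.Agent.P358
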