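import Vale.Agent.P358.Step
import Mathlib.Data.Fin.Tuple.Basic
import Mathlib.Algebra.BigOperators.Fin
import Mathlib.Algebra.BigOperators.Ring.Finset

/-!
# The tensor powers of the channel on product and pure inputs; the recursion
-/

namespace Vale.Agent.P358

open scoped ComplexOrder
open Matrix Real

noncomputable section

/-- Real Kraus entries of the channel. -/
def kraus (γ ν : ℝ) : Fin 4 → Matrix (Fin 2) (Fin 2) ℝ :=
  ![!![√(1 - ν), 0; 0, √(1 - ν) * √(1 - γ)], !![0, √(1 - ν) * √γ; 0, 0],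
    !![√ν * √(1 - γ), 0; 0, √ν], !![0, 0; √ν * √γ, 0]]

lemma kraus_sum {γ ν : ℝ} (hγ : γ ∈ Set.Icc (0 : ℝ) 1) (hν : ν ∈ Set.Icc (0 : ℝ) 1)
    (a b c d : Fin 2) :
    gad γ ν (Matrix.single a b 1) c d =
      ∑ e, ((kraus γ ν e c a : ℝ) : ℂ) * ((kraus γ ν e d b : ℝ) : ℂ) := by
  have h1 : (√(1 - γ) : ℝ) * √(1 - γ) = 1 - γ := Real.mul_self_sqrt (by linarith [hγ.2])
  have h2 : √γ * √γ = γ := Real.mul_self_sqrt hγ.1
  have h3 : √(1 - ν) * √(1 - ν) = 1 - ν := Real.mul_self_sqrt (by linarith [hν.2])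
  have h4 : √ν * √ν = ν := Real.mul_self_sqrt hν.1
  simp only [Fin.sum_univ_four, ← Complex.ofReal_mul, ← Complex.ofReal_add]
  fin_cases a <;> fin_cases b <;> fin_cases c <;> fin_cases d <;>
    simp [gad, kraus] <;> norm_cast
  all_goals grind

lemma gad_psd_apply (γ ν : ℝ) (M : Matrix (Fin 2) (Fin 2) ℂ) (c d : Fin 2) :
    gad γ ν M c d = ∑ a, ∑ b, gad γ ν (Matrix.single a b 1) c d * M a b := by
  fin_cases c <;> fin_cases d <;> simp [gad, Fin.sum_univ_two, Matrix.single_apply]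

/-- The Kronecker product of a family of matrices. -/
def kron {n : ℕ} (M : Fin n → Matrix (Fin 2) (Fin 2) ℂ) :
    Matrix (Fin n → Fin 2) (Fin n → Fin 2) ℂ :=
  Matrix.of fun x y => ∏ i, M i (x i) (y i)

lemma tensorPower_kron (γ ν : ℝ) {n : ℕ} (M : Fin n → Matrix (Fin 2) (Fin 2) ℂ) :
    tensorPower (gad γ ν) n (kron M) = kron fun i => gad γ ν (M i) := by
  ext x y
  simp only [tensorPower, kron, Matrix.of_apply, ← Finset.prod_mul_distrib]
  rw [Finset.prod_congr rfl fun i _ => gad_psd_apply γ ν (M i) (x i) (y i), Fintype.prod_sum]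
  refine Finset.sum_congr rfl fun a _ => ?_
  rw [Fintype.prod_sum]

lemma tensorPower_sum (Φ : Matrix (Fin 2) (Fin 2) ℂ → Matrix (Fin 2) (Fin 2) ℂ) {n : ℕ}
    {β : Type*} [Fintype β] (c : β → ℂ) (ρ : β → Matrix (Fin n → Fin 2) (Fin n → Fin 2) ℂ) :
    tensorPower Φ n (∑ b, c b • ρ b) = ∑ b, c b • tensorPower Φ n (ρ b) := by
  ext x y
  simp only [tensorPower, Matrix.of_apply, Matrix.sum_apply, Matrix.smul_apply, smul_eq_mul,
    Finset.mul_sum]
  rw [Finset.sum_congr rfl fun a _ => Finset.sum_comm, Finset.sum_comm]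
  exact Finset.sum_congr rfl fun _ _ => Finset.sum_congr rfl fun _ _ =>
    Finset.sum_congr rfl fun _ _ => by ring

/-- The Stinespring matrix applied to a vector. -/
def krausImage (γ ν : ℝ) {n : ℕ} (φ : (Fin n → Fin 2) → ℂ) :
    Matrix (Fin n → Fin 2) (Fin n → Fin 4) ℂ :=
  Matrix.of fun x e => ∑ y, (∏ i, ((kraus γ ν (e i) (x i) (y i) : ℝ) : ℂ)) * φ y

lemma tensorPower_outer {γ ν : ℝ} (hγ : γ ∈ Set.Icc (0 : ℝ) 1) (hν : ν ∈ Set.Icc (0 : ℝ) 1)
    {n : ℕ} (φ χ : (Fin n → Fin 2) → ℂ) :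
    tensorPower (gad γ ν) n (Matrix.vecMulVec φ (star χ)) =
      krausImage γ ν φ * (krausImage γ ν χ)ᴴ := by
  ext x y
  simp only [tensorPower, krausImage, Matrix.of_apply, Matrix.mul_apply,
    Matrix.conjTranspose_apply, Matrix.vecMulVec_apply, Pi.star_apply, star_sum, star_mul',
    star_prod, Complex.star_def, Complex.conj_ofReal, Finset.sum_mul_sum]
  simp only [kraus_sum hγ hν, Fintype.prod_sum, Finset.prod_mul_distrib, Finset.sum_mul]
  rw [Finset.sum_comm (γ := Fin n → Fin 4)]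
  refine Finset.sum_congr rfl fun a _ => ?_
  rw [Finset.sum_comm (γ := Fin n → Fin 4)]
  refine Finset.sum_congr rfl fun b _ => Finset.sum_congr rfl fun e _ => ?_
  ring

lemma gad_trace (γ ν : ℝ) (a b : Fin 2) :
    ∑ c, gad γ ν (Matrix.single a b 1) c c = if a = b then 1 else 0 := by
  fin_cases a <;> fin_cases b <;> simp [gad, Fin.sum_univ_two, Matrix.single_apply]

lemma trace_tensorPower (γ ν : ℝ) {n : ℕ} (ρ : Matrix (Fin n → Fin 2) (Fin n → Fin 2) ℂ) :
    (tensorPower (gad γ ν) n ρ).trace = ρ.trace := by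
  simp only [Matrix.trace, Matrix.diag, tensorPower, Matrix.of_apply]
  rw [Finset.sum_comm]
  refine Finset.sum_congr rfl fun a _ => ?_
  rw [Finset.sum_comm, Finset.sum_eq_single a]
  · rw [← Finset.sum_mul, ← Fintype.prod_sum fun i c => gad γ ν (Matrix.single (a i) (a i) 1) c c]
    rw [Finset.prod_eq_one fun i _ => (gad_trace γ ν (a i) (a i)).trans (if_pos rfl), one_mul]
  · intro b _ hb
    obtain ⟨i, hi⟩ := Function.ne_iff.mp hb
    rw [← Finset.sum_mul, ← Fintype.prod_sum fun i c => gad γ ν (Matrix.single (a i) (b i) 1) c c,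
      Finset.prod_eq_zero (Finset.mem_univ i) (by rw [gad_trace, if_neg (Ne.symm hi)]), zero_mul]
  · simp

lemma krausImage_trace {γ ν : ℝ} (hγ : γ ∈ Set.Icc (0 : ℝ) 1) (hν : ν ∈ Set.Icc (0 : ℝ) 1)
    {n : ℕ} (φ : (Fin n → Fin 2) → ℂ) :
    (krausImage γ ν φ * (krausImage γ ν φ)ᴴ).trace.re = ∑ y, Complex.normSq (φ y) := by
  rw [← tensorPower_outer hγ hν, trace_tensorPower]
  simp [Matrix.trace, Matrix.vecMulVec_apply, Complex.normSq_apply]

lemma sum_cons {M : Type*} [AddCommMonoid M] {n : ℕ} {κ : Type*} [Fintype κ] [DecidableEq κ]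
    (f : (Fin (n + 1) → κ) → M) :
    ∑ x, f x = ∑ a, ∑ x' : Fin n → κ, f (Fin.cons a x') := by
  rw [← (Fin.consEquiv fun _ : Fin (n + 1) => κ).sum_comp, Fintype.sum_prod_type]
  rfl

lemma tensorPower_succ (Φ : Matrix (Fin 2) (Fin 2) ℂ → Matrix (Fin 2) (Fin 2) ℂ) {n : ℕ}
    (φ χ : (Fin (n + 1) → Fin 2) → ℂ) (a a' : Fin 2) (x x' : Fin n → Fin 2) :
    tensorPower Φ (n + 1) (Matrix.vecMulVec φ (star χ)) (Fin.cons a x) (Fin.cons a' x') =
      ∑ b, ∑ b', Φ (Matrix.single b b' 1) a a' * tensorPower Φ n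
        (Matrix.vecMulVec (fun y => φ (Fin.cons b y)) (star fun y => χ (Fin.cons b' y))) x x' := by
  simp only [tensorPower, Matrix.of_apply]
  rw [sum_cons]
  refine Finset.sum_congr rfl fun b _ => ?_
  rw [Finset.sum_congr rfl fun y _ => sum_cons _, Finset.sum_comm]
  refine Finset.sum_congr rfl fun b' _ => ?_
  simp only [Fin.prod_univ_succ, Fin.cons_zero, Fin.cons_succ, Finset.mul_sum,
    Matrix.vecMulVec_apply, Pi.star_apply, mul_assoc]

/-- Splitting off the first qubit. -/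
def splitEquiv (n : ℕ) : (Fin n → Fin 2) ⊕ (Fin n → Fin 2) ≃ (Fin (n + 1) → Fin 2) where
  toFun := Sum.elim (fun x => (Fin.cons 0 x : Fin (n + 1) → Fin 2))
    (fun x => (Fin.cons 1 x : Fin (n + 1) → Fin 2))
  invFun x := if x 0 = 0 then Sum.inl (Fin.tail x) else Sum.inr (Fin.tail x)
  left_inv := by rintro (x | x) <;> simp
  right_inv x := by
    by_cases h : x 0 = 0
    · simp only [if_pos h, Sum.elim_inl]
      rw [← h, Fin.cons_self_tail]
    · have h1 : x 0 = 1 := Fin.eq_one_of_ne_zero _ h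
      simp only [if_neg h, Sum.elim_inr]
      rw [← h1, Fin.cons_self_tail]

lemma ent_submatrix {ι κ : Type*} [Fintype ι] [DecidableEq ι] [Fintype κ] [DecidableEq κ]
    {Y : Matrix ι ι ℂ} (hY : Y.PosSemidef) (e : κ ≃ ι) : ent (Y.submatrix e e) = ent Y := by
  refine ent_congr (hY.submatrix e) hY ?_ fun t => ?_
  · simp only [Matrix.trace, Matrix.diag, Matrix.submatrix_apply]
    exact e.sum_comp fun i => Y i i
  · rw [← Matrix.det_submatrix_equiv_self e (1 + (t : ℂ) • Y)]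
    congr 1
    ext i j
    simp [Matrix.one_apply]

lemma split_output {γ ν : ℝ} (hγ : γ ∈ Set.Icc (0 : ℝ) 1) (hν : ν ∈ Set.Icc (0 : ℝ) 1)
    {n : ℕ} (ψ : (Fin (n + 1) → Fin 2) → ℂ) :
    (tensorPower (gad γ ν) (n + 1) (Matrix.vecMulVec ψ (star ψ))).submatrix
        (splitEquiv n) (splitEquiv n) =
      stepState γ ν (krausImage γ ν fun y => ψ (Fin.cons 0 y))
        (krausImage γ ν fun y => ψ (Fin.cons 1 y)) := by
  ext i j
  rcases i with x | x <;> rcases j with y | y <;>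
  · simp only [Matrix.submatrix_apply, splitEquiv, Equiv.coe_fn_mk, Sum.elim_inl, Sum.elim_inr]
    rw [tensorPower_succ]
    simp only [tensorPower_outer hγ hν, Fin.sum_univ_two]
    simp [stepState, gad, Matrix.single_apply]

/-- The recursion: a linear lower bound on the output excess of every pure input. -/
theorem excess_ge {γ ν : ℝ} (hγ : γ ∈ Set.Icc (0 : ℝ) 1) (hν : ν ∈ Set.Icc (0 : ℝ) 1)
    (L : Fin 2 → ℝ)
    (hL : L = 0 ∨ ((∀ u w : ℝ, 0 < u → 0 < w → 0 < outDet γ ν u w) ∧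
      ∀ u w : ℝ, 0 ≤ u → 0 ≤ w →
        L 0 * u + L 1 * w + negMulLog (u + w) ≤ pairEnt (u + w) (outDet γ ν u w))) :
    ∀ (n : ℕ) (ψ : (Fin n → Fin 2) → ℂ), ∑ y, Complex.normSq (ψ y) * ∑ i, L (y i) ≤
      excess (krausImage γ ν ψ * (krausImage γ ν ψ)ᴴ) := by
  intro n
  induction n with
  | zero =>
    intro ψ
    simpa using excess_nonneg (posSemidef_self_mul_conjTranspose (krausImage γ ν ψ))
  | succ n ih =>
    intro ψ
    rcases hL with hL | ⟨hD, hline⟩
    · simpa [hL] using excess_nonneg (posSemidef_self_mul_conjTranspose (krausImage γ ν ψ))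
    set φ₀ := fun y => ψ (Fin.cons 0 y) with hφ₀
    set φ₁ := fun y => ψ (Fin.cons 1 y) with hφ₁
    set A := krausImage γ ν φ₀ with hA
    set C := krausImage γ ν φ₁ with hC
    have hu := krausImage_trace hγ hν φ₀
    have hw := krausImage_trace hγ hν φ₁
    rw [← hA] at hu
    rw [← hC] at hw
    set u := ∑ y, Complex.normSq (φ₀ y) with hudef
    set w := ∑ y, Complex.normSq (φ₁ y) with hwdef
    have hu0 : 0 ≤ u := Finset.sum_nonneg fun y _ => Complex.normSq_nonneg _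
    have hw0 : 0 ≤ w := Finset.sum_nonneg fun y _ => Complex.normSq_nonneg _
    have htot : ∑ y, Complex.normSq (ψ y) = u + w := by
      rw [sum_cons, Fin.sum_univ_two]
    have hY := posSemidef_self_mul_conjTranspose (krausImage γ ν ψ)
    have he : ent (krausImage γ ν ψ * (krausImage γ ν ψ)ᴴ) = ent (stepState γ ν A C) := by
      rw [← ent_submatrix hY (splitEquiv n), ← tensorPower_outer hγ hν, split_output hγ hν]
    rw [excess, he, krausImage_trace hγ hν, htot, sum_cons, Fin.sum_univ_two]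
    have hs := step_le hγ hν hD A C
    rw [hu, hw] at hs
    have hl := hline u w hu0 hw0
    have h0 := ih φ₀
    have h1 := ih φ₁
    rw [← hA] at h0
    rw [← hC] at h1
    simp only [Fin.sum_univ_succ, Fin.cons_zero, Fin.cons_succ, mul_add, Finset.sum_add_distrib,
      ← Finset.sum_mul] at *
    rw [← hudef, ← hwdef]
    linarith

end

end Vale.Agent.P358
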