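import Vale.Agent.P358.Entropy
import Mathlib.LinearAlgebra.Matrix.Charpoly.Coeff
import Mathlib.Analysis.SpecialFunctions.Log.Deriv
import Mathlib.Analysis.Calculus.Deriv.Polynomial
import Mathlib.Topology.Instances.Matrix

/-!
# Convexity of `log |det (H + K)| - log det H`

For a fixed skew-Hermitian `K` this is convex in the positive definite matrix `H`.
-/

namespace Vale.Agent.P358

open scoped ComplexOrder
open Matrix Real Filter Topology

noncomputable section

variable {κ : Type*} [Fintype κ] [DecidableEq κ]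

lemma re_trace_sq_le (M : Matrix κ κ ℂ) : (M * M).trace.re ≤ (Mᴴ * M).trace.re := by
  simp only [Matrix.trace, Matrix.diag, Matrix.mul_apply, Complex.re_sum,
    Matrix.conjTranspose_apply]
  have h : ∀ i j, (M i j * M j i).re ≤
      ((star (M j i) * M j i).re + (star (M i j) * M i j).re) / 2 := by
    intro i j
    simp [Complex.mul_re]
    nlinarith [sq_nonneg ((M i j).re - (M j i).re), sq_nonneg ((M i j).im + (M j i).im)]
  have h2 : ∑ i, ∑ j, (star (M j i) * M j i).re = ∑ i, ∑ j, (star (M i j) * M i j).re :=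
    Finset.sum_comm
  calc ∑ i, ∑ j, (M i j * M j i).re
      ≤ ∑ i, ∑ j, ((star (M j i) * M j i).re + (star (M i j) * M i j).re) / 2 :=
        Finset.sum_le_sum fun i _ => Finset.sum_le_sum fun j _ => h i j
    _ = ∑ i, ∑ j, (star (M j i) * M j i).re := by
        simp only [← Finset.sum_div, Finset.sum_add_distrib, ← h2]
        ring

lemma isUnit_one_add_skew {K : Matrix κ κ ℂ} (hK : Kᴴ = -K) : IsUnit (1 + K).det := by
  have h : ((1 + K)ᴴ * (1 + K)) = 1 + Kᴴ * K := by
    rw [Matrix.conjTranspose_add, Matrix.conjTranspose_one, hK]; noncomm_ring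
  have hpd : ((1 + K)ᴴ * (1 + K)).PosDef := by
    rw [h]; exact Matrix.PosDef.one.add_posSemidef (Matrix.posSemidef_conjTranspose_mul_self K)
  have := hpd.det_pos.ne'
  rw [Matrix.det_mul] at this
  exact isUnit_iff_ne_zero.mpr (right_ne_zero_of_mul this)

lemma isUnit_add_skew {H K : Matrix κ κ ℂ} (hH : H.PosDef) (hK : Kᴴ = -K) :
    IsUnit (H + K).det := by
  obtain ⟨B, hB⟩ := psd_factor hH.posSemidef
  have hBu : IsUnit B.det := by
    have := hH.det_pos.ne'
    rw [hB, Matrix.det_mul] at this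
    exact isUnit_iff_ne_zero.mpr (right_ne_zero_of_mul this)
  have hB1 := Matrix.mul_nonsing_inv B hBu
  have hB2 := Matrix.nonsing_inv_mul B hBu
  set K' := (B⁻¹)ᴴ * K * B⁻¹ with hK'
  have hK's : K'ᴴ = -K' := by
    simp [hK', Matrix.conjTranspose_mul, hK, Matrix.mul_assoc]
  have e : H + K = Bᴴ * (1 + K') * B := by
    have h1 : Bᴴ * (B⁻¹)ᴴ = 1 := by rw [← Matrix.conjTranspose_mul, hB2, Matrix.conjTranspose_one]
    rw [Matrix.mul_add, Matrix.add_mul, Matrix.mul_one, hK',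
      show Bᴴ * ((B⁻¹)ᴴ * K * B⁻¹) * B = (Bᴴ * (B⁻¹)ᴴ) * K * (B⁻¹ * B) by
        simp only [Matrix.mul_assoc], h1, hB2, Matrix.one_mul, Matrix.mul_one, hB]
  rw [e, Matrix.det_mul, Matrix.det_mul, Matrix.det_conjTranspose]
  exact (hBu.star.mul (isUnit_one_add_skew hK's)).mul hBu

/-- The second-derivative inequality. -/
lemma trace_quad_le {H K E : Matrix κ κ ℂ} (hH : H.PosDef) (hK : Kᴴ = -K) (hE : Eᴴ = E) :
    ((H + K)⁻¹ * E * ((H + K)⁻¹ * E)).trace.re ≤ (H⁻¹ * E * (H⁻¹ * E)).trace.re := by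
  obtain ⟨B, hB⟩ := psd_factor hH.posSemidef
  have hBu : IsUnit B.det := by
    have := hH.det_pos.ne'
    rw [hB, Matrix.det_mul] at this
    exact isUnit_iff_ne_zero.mpr (right_ne_zero_of_mul this)
  have hB1 := Matrix.mul_nonsing_inv B hBu
  have hB2 := Matrix.nonsing_inv_mul B hBu
  set C := B⁻¹ with hC
  have hC1 : Bᴴ * Cᴴ = 1 := by rw [← Matrix.conjTranspose_mul, hB2, Matrix.conjTranspose_one]
  have hC2 : Cᴴ * Bᴴ = 1 := by rw [← Matrix.conjTranspose_mul, hB1, Matrix.conjTranspose_one]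
  set K' := Cᴴ * K * C with hK'
  set E' := Cᴴ * E * C with hE'
  have hK's : K'ᴴ = -K' := by simp [hK', Matrix.conjTranspose_mul, hK, Matrix.mul_assoc]
  have hE's : E'ᴴ = E' := by simp [hE', Matrix.conjTranspose_mul, hE, Matrix.mul_assoc]
  set N := (1 + K')⁻¹ with hN
  have hN1 : (1 + K') * N = 1 := Matrix.mul_nonsing_inv _ (isUnit_one_add_skew hK's)
  have hHK : H + K = Bᴴ * (1 + K') * B := by
    rw [Matrix.mul_add, Matrix.add_mul, Matrix.mul_one, hK',
      show Bᴴ * (Cᴴ * K * C) * B = (Bᴴ * Cᴴ) * K * (C * B) by simp only [Matrix.mul_assoc],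
      hC1, hB2, Matrix.one_mul, Matrix.mul_one, hB]
  have hG : (H + K)⁻¹ = C * N * Cᴴ := by
    apply Matrix.inv_eq_right_inv
    rw [hHK, show Bᴴ * (1 + K') * B * (C * N * Cᴴ) = Bᴴ * ((1 + K') * ((B * C) * N)) * Cᴴ by
      simp only [Matrix.mul_assoc], hB1, Matrix.one_mul, hN1, Matrix.mul_one, hC1]
  have hHi : H⁻¹ = C * Cᴴ := by
    apply Matrix.inv_eq_right_inv
    rw [hB, show Bᴴ * B * (C * Cᴴ) = Bᴴ * ((B * C) * Cᴴ) by simp only [Matrix.mul_assoc], hB1,
      Matrix.one_mul, hC1]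
  have e1 : ((H + K)⁻¹ * E * ((H + K)⁻¹ * E)).trace = (N * E' * (N * E')).trace := by
    rw [hG, show C * N * Cᴴ * E * (C * N * Cᴴ * E) = C * (N * Cᴴ * E * C * N * Cᴴ * E) by
      simp only [Matrix.mul_assoc], Matrix.trace_mul_comm, hE']
    simp only [Matrix.mul_assoc]
  have e2 : (H⁻¹ * E * (H⁻¹ * E)).trace = (E'ᴴ * E').trace := by
    rw [hHi, show C * Cᴴ * E * (C * Cᴴ * E) = C * (Cᴴ * E * C * Cᴴ * E) by
      simp only [Matrix.mul_assoc], Matrix.trace_mul_comm, hE's, hE']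
    simp only [Matrix.mul_assoc]
  rw [e1, e2]
  obtain ⟨M, hM⟩ : ∃ M, M = N * E' := ⟨_, rfl⟩
  rw [← hM]
  refine (re_trace_sq_le M).trans ?_
  have hE'M : E' = (1 + K') * M := by rw [hM, ← Matrix.mul_assoc, hN1, Matrix.one_mul]
  clear hM
  have e3 : E'ᴴ * E' = Mᴴ * M + (K' * M)ᴴ * (K' * M) := by
    clear_value K' E'
    rw [hE'M, Matrix.conjTranspose_mul (1 + K') M, Matrix.conjTranspose_add 1 K',
      Matrix.conjTranspose_one, Matrix.conjTranspose_mul K' M, hK's]
    noncomm_ring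
  rw [e3, Matrix.trace_add, Complex.add_re]
  have := (Complex.nonneg_iff.mp
    (Matrix.posSemidef_conjTranspose_mul_self (K' * M)).trace_nonneg).1
  linarith

lemma hasDerivAt_det_line (A E : Matrix κ κ ℂ) (t : ℝ) (h : IsUnit (A + (t : ℂ) • E).det) :
    HasDerivAt (fun s : ℝ => (A + (s : ℂ) • E).det)
      (((A + (t : ℂ) • E)⁻¹ * E).trace * (A + (t : ℂ) • E).det) t := by
  set At := A + (t : ℂ) • E with hAt
  set M := At⁻¹ * E with hM
  obtain ⟨p, hp⟩ : ∃ p : Polynomial ℂ, ∀ r : ℂ,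
      (1 + r • M).det = 1 + M.trace * r + p.eval r * r ^ 2 :=
    ⟨_, fun r => Matrix.det_one_add_smul r M⟩
  have e : ∀ s : ℝ, (A + (s : ℂ) • E).det =
      At.det * (1 + M.trace * ((s : ℂ) - t) + p.eval ((s : ℂ) - t) * ((s : ℂ) - t) ^ 2) := by
    intro s
    rw [← hp, ← Matrix.det_mul, Matrix.mul_add, Matrix.mul_one, Matrix.mul_smul, hM,
      ← Matrix.mul_assoc, Matrix.mul_nonsing_inv _ h, Matrix.one_mul, sub_smul, hAt]
    congr 1
    abel
  have hc : HasDerivAt (fun z : ℂ => At.det *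
      (1 + M.trace * (z - t) + p.eval (z - t) * (z - t) ^ 2)) (M.trace * At.det) (t : ℂ) := by
    have h1 : HasDerivAt (fun z : ℂ => z - (t : ℂ)) 1 (t : ℂ) := (hasDerivAt_id _).sub_const _
    have h2 := (HasDerivAt.comp (h := fun z : ℂ => z - (t : ℂ)) (h₂ := fun z => p.eval z) (t : ℂ)
      (p.hasDerivAt ((t : ℂ) - t)) h1).mul (h1.pow 2)
    refine ((((h1.const_mul M.trace).const_add 1).add h2).const_mul At.det).congr_deriv ?_
    simp
    ring
  exact hc.comp_ofReal.congr_of_eventuallyEq (Eventually.of_forall fun s => e s)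

lemma hasDerivAt_log_norm {p : ℝ → ℂ} {c : ℂ} {t : ℝ} (hp : HasDerivAt p (c * p t) t)
    (h0 : p t ≠ 0) : HasDerivAt (fun s => Real.log ‖p s‖) c.re t := by
  have hre := Complex.reCLM.hasFDerivAt.comp_hasDerivAt t hp
  have him := Complex.imCLM.hasFDerivAt.comp_hasDerivAt t hp
  have hs := ((hre.mul hre).add (him.mul him))
  have hpos : 0 < Complex.normSq (p t) := Complex.normSq_pos.mpr h0
  have hl := ((hs.log (by simpa [Complex.normSq_apply] using hpos.ne')).const_mul (1 / 2 : ℝ))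
  have e : (fun s => Real.log ‖p s‖) = fun s =>
      1 / 2 * Real.log (Complex.reCLM (p s) * Complex.reCLM (p s) +
        Complex.imCLM (p s) * Complex.imCLM (p s)) := by
    funext s
    rw [Complex.norm_def, Real.log_sqrt (Complex.normSq_nonneg _)]
    simp [Complex.normSq_apply]
    ring
  rw [e]
  refine hl.congr_deriv ?_
  simp [Complex.mul_re, Complex.mul_im]
  have hne : (p t).re ^ 2 + (p t).im ^ 2 ≠ 0 := by
    rw [Complex.normSq_apply] at hpos
    nlinarith
  rw [show (p t).re * (p t).re + (p t).im * (p t).im = (p t).re ^ 2 + (p t).im ^ 2 by ring]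
  field_simp
  ring

lemma continuousAt_inv_line (A E : Matrix κ κ ℂ) (t : ℝ) (h : IsUnit (A + (t : ℂ) • E).det) :
    ContinuousAt (fun s : ℝ => (A + (s : ℂ) • E)⁻¹) t := by
  have hc : Continuous fun s : ℝ => A + (s : ℂ) • E :=
    continuous_const.add (Complex.continuous_ofReal.smul continuous_const)
  have hi : ContinuousAt (fun B : Matrix κ κ ℂ => B⁻¹) (A + (t : ℂ) • E) := by
    apply continuousAt_matrix_inv
    rw [Ring.inverse_eq_inv']
    exact continuousAt_inv₀ (isUnit_iff_ne_zero.mp h)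
  exact ContinuousAt.comp (g := fun B : Matrix κ κ ℂ => B⁻¹)
    (f := fun s : ℝ => A + (s : ℂ) • E) hi hc.continuousAt

lemma hasDerivAt_trace_inv (A E : Matrix κ κ ℂ) (t : ℝ) (h : IsUnit (A + (t : ℂ) • E).det) :
    HasDerivAt (fun s : ℝ => ((A + (s : ℂ) • E)⁻¹ * E).trace.re)
      (-(((A + (t : ℂ) • E)⁻¹ * E * ((A + (t : ℂ) • E)⁻¹ * E)).trace.re)) t := by
  rw [hasDerivAt_iff_tendsto_slope]
  set G := (A + (t : ℂ) • E)⁻¹ with hG
  have hev : ∀ᶠ s : ℝ in 𝓝[≠] t, IsUnit (A + (s : ℂ) • E).det := by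
    refine eventually_nhdsWithin_of_eventually_nhds ?_
    have hc : Continuous fun s : ℝ => (A + (s : ℂ) • E).det :=
      (continuous_const.add (Complex.continuous_ofReal.smul continuous_const)).matrix_det
    exact (hc.continuousAt.eventually_ne (isUnit_iff_ne_zero.mp h)).mono
      fun s hs => isUnit_iff_ne_zero.mpr hs
  have hlim : Tendsto (fun s : ℝ => -((((A + (s : ℂ) • E)⁻¹ * E * (G * E))).trace.re))
      (𝓝[≠] t) (𝓝 (-((G * E * (G * E)).trace.re))) := by
    apply tendsto_nhdsWithin_of_tendsto_nhds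
    have hc : Continuous fun B : Matrix κ κ ℂ => -((B * E * (G * E)).trace.re) :=
      (Complex.continuous_re.comp
        ((continuous_id.matrix_mul continuous_const).matrix_mul continuous_const).matrix_trace).neg
    exact ((hc.continuousAt.comp (continuousAt_inv_line A E t h)).tendsto)
  refine hlim.congr' ?_
  filter_upwards [hev, self_mem_nhdsWithin] with s hs hne
  have hne' : s - t ≠ 0 := sub_ne_zero.mpr hne
  set Gs := (A + (s : ℂ) • E)⁻¹ with hGs
  have hdiff : Gs - G = -(((s - t : ℝ) : ℂ) • (Gs * E * G)) := by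
    have e1 : Gs * ((A + (t : ℂ) • E) - (A + (s : ℂ) • E)) * G = Gs - G := by
      rw [Matrix.mul_sub, Matrix.sub_mul, Matrix.mul_assoc, hG, Matrix.mul_nonsing_inv _ h,
        Matrix.mul_one, hGs, Matrix.nonsing_inv_mul _ hs, Matrix.one_mul]
    rw [← e1, add_sub_add_left_eq_sub, ← sub_smul, Matrix.mul_smul, Matrix.smul_mul,
      ← neg_smul]
    congr 1
    push_cast
    ring
  rw [slope_def_field, ← Complex.sub_re, ← Matrix.trace_sub, ← Matrix.sub_mul, hdiff,
    Matrix.neg_mul, Matrix.trace_neg, Matrix.smul_mul, Matrix.trace_smul]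
  simp only [smul_eq_mul, Complex.neg_re, Complex.re_ofReal_mul, Matrix.mul_assoc]
  field_simp

/-- `log |det (H + K)| - log |det H|`. -/
def skewGain (K H : Matrix κ κ ℂ) : ℝ := Real.log ‖(H + K).det‖ - Real.log ‖H.det‖

/-- Convexity used at a critical point: the base point is a minimum. -/
theorem skewGain_le {H₀ H₁ K : Matrix κ κ ℂ} (h0 : H₀.PosDef) (h1 : H₁.PosDef) (hK : Kᴴ = -K)
    (hcrit : ((H₀ + K)⁻¹ * (H₁ - H₀)).trace.re = (H₀⁻¹ * (H₁ - H₀)).trace.re) :
    skewGain K H₀ ≤ skewGain K H₁ := by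
  set E := H₁ - H₀ with hE
  have hEs : Eᴴ = E := by rw [hE, Matrix.conjTranspose_sub, h0.1.eq, h1.1.eq]
  have hpd : ∀ t ∈ Set.Icc (0 : ℝ) 1, (H₀ + (t : ℂ) • E).PosDef := by
    intro t ht
    have e : H₀ + (t : ℂ) • E = ((1 - t : ℝ) : ℂ) • H₀ + (t : ℂ) • H₁ := by
      rw [hE, smul_sub]
      push_cast
      rw [sub_smul, one_smul]
      abel
    rw [e]
    rcases eq_or_lt_of_le ht.1 with h | h
    · subst h; simpa using h0
    · exact Matrix.PosDef.posSemidef_add (h0.posSemidef.smul (by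
        exact_mod_cast (sub_nonneg.mpr ht.2))) (h1.smul (by exact_mod_cast h))
  set φ' : ℝ → ℝ := fun t => ((H₀ + K + (t : ℂ) • E)⁻¹ * E).trace.re
    - ((H₀ + (t : ℂ) • E)⁻¹ * E).trace.re with hφ'
  have hu : ∀ t ∈ Set.Icc (0 : ℝ) 1, IsUnit (H₀ + K + (t : ℂ) • E).det := by
    intro t ht
    rw [add_right_comm]; exact isUnit_add_skew (hpd t ht) hK
  have hu' : ∀ t ∈ Set.Icc (0 : ℝ) 1, IsUnit (H₀ + (t : ℂ) • E).det := fun t ht =>
    isUnit_iff_ne_zero.mpr (hpd t ht).det_pos.ne'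
  have hφ : ∀ t ∈ Set.Icc (0 : ℝ) 1,
      HasDerivAt (fun s : ℝ => skewGain K (H₀ + (s : ℂ) • E)) (φ' t) t := by
    intro t ht
    refine HasDerivAt.sub ?_ (hasDerivAt_log_norm (hasDerivAt_det_line H₀ E t (hu' t ht))
      (isUnit_iff_ne_zero.mp (hu' t ht)))
    have := hasDerivAt_log_norm (hasDerivAt_det_line (H₀ + K) E t (hu t ht))
      (isUnit_iff_ne_zero.mp (hu t ht))
    simpa only [add_right_comm] using this
  have hφ'd : ∀ t ∈ Set.Icc (0 : ℝ) 1, ∃ d, 0 ≤ d ∧ HasDerivAt φ' d t := by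
    intro t ht
    refine ⟨_, ?_, (hasDerivAt_trace_inv (H₀ + K) E t (hu t ht)).sub
      (hasDerivAt_trace_inv H₀ E t (hu' t ht))⟩
    have := trace_quad_le (hpd t ht) hK hEs
    rw [add_right_comm] at this
    linarith
  have hm : MonotoneOn φ' (Set.Icc 0 1) := by
    refine monotoneOn_of_deriv_nonneg (convex_Icc 0 1)
      (fun t ht => (hφ'd t ht).choose_spec.2.continuousAt.continuousWithinAt)
      (fun t ht => (hφ'd t (interior_subset ht)).choose_spec.2.differentiableAt.differentiableWithinAt)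
      fun t ht => ?_
    obtain ⟨d, hd, hd'⟩ := hφ'd t (interior_subset ht)
    rw [hd'.deriv]; exact hd
  have h00 : φ' 0 = 0 := by simp [hφ', hcrit]
  have hmφ : MonotoneOn (fun s : ℝ => skewGain K (H₀ + (s : ℂ) • E)) (Set.Icc 0 1) := by
    refine monotoneOn_of_deriv_nonneg (convex_Icc 0 1)
      (fun t ht => (hφ t ht).continuousAt.continuousWithinAt)
      (fun t ht => (hφ t (interior_subset ht)).differentiableAt.differentiableWithinAt)
      fun t ht => ?_
    rw [(hφ t (interior_subset ht)).deriv, ← h00]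
    exact hm (Set.left_mem_Icc.mpr zero_le_one) (interior_subset ht) (interior_subset ht).1
  have := hmφ (Set.left_mem_Icc.mpr zero_le_one) (Set.right_mem_Icc.mpr zero_le_one) zero_le_one
  simpa [hE] using this

end

end Vale.Agent.P358
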