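import Mathlib.Analysis.Matrix.Spectrum
import Mathlib.LinearAlgebra.Matrix.PosDef
import Mathlib.Analysis.SpecialFunctions.Log.NegMulLog
import Mathlib.Analysis.SpecialFunctions.BinaryEntropy
import Mathlib.Analysis.SpecialFunctions.Log.Base

/-!
# The generalized amplitude damping channel and its classical capacity: definitions
-/

namespace Vale.Agent.P358

open scoped ComplexOrder
open Matrix

noncomputable section

/-- The generalized amplitude damping channel (as a linear map on all `2 × 2` matrices). -/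
def gad (γ ν : ℝ) (ρ : Matrix (Fin 2) (Fin 2) ℂ) : Matrix (Fin 2) (Fin 2) ℂ :=
  !![((1 - γ * ν : ℝ) : ℂ) * ρ 0 0 + ((γ * (1 - ν) : ℝ) : ℂ) * ρ 1 1,
      (Real.sqrt (1 - γ) : ℂ) * ρ 0 1;
     (Real.sqrt (1 - γ) : ℂ) * ρ 1 0,
      ((γ * ν : ℝ) : ℂ) * ρ 0 0 + ((1 - γ * (1 - ν) : ℝ) : ℂ) * ρ 1 1]

/-- The `n`-fold tensor power of a linear map on `2 × 2` matrices, acting on `n`-qubit matrices. -/
def tensorPower (Φ : Matrix (Fin 2) (Fin 2) ℂ → Matrix (Fin 2) (Fin 2) ℂ) (n : ℕ)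
    (ρ : Matrix (Fin n → Fin 2) (Fin n → Fin 2) ℂ) :
    Matrix (Fin n → Fin 2) (Fin n → Fin 2) ℂ :=
  Matrix.of fun x y => ∑ x', ∑ y',
    (∏ i, Φ (Matrix.single (x' i) (y' i) 1) (x i) (y i)) * ρ x' y'

/-- A density matrix. -/
def IsDensity {ι : Type*} [Fintype ι] (ρ : Matrix ι ι ℂ) : Prop :=
  ρ.PosSemidef ∧ ρ.trace = 1

/-- The von Neumann entropy in bits: `-∑ λ log₂ λ` over the eigenvalues. -/
def vonNeumann {ι : Type*} [Fintype ι] [DecidableEq ι] (ρ : Matrix ι ι ℂ) : ℝ :=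
  if h : ρ.IsHermitian then ∑ i, -(h.eigenvalues i * Real.logb 2 (h.eigenvalues i)) else 0

/-- The Holevo quantities of all finite ensembles of `n`-qubit input states of the `n`-fold
tensor power. -/
def holevoValues (Φ : Matrix (Fin 2) (Fin 2) ℂ → Matrix (Fin 2) (Fin 2) ℂ) (n : ℕ) : Set ℝ :=
  {v | ∃ (k : ℕ) (p : Fin k → ℝ) (ρ : Fin k → Matrix (Fin n → Fin 2) (Fin n → Fin 2) ℂ),
    (∀ a, 0 ≤ p a) ∧ ∑ a, p a = 1 ∧ (∀ a, IsDensity (ρ a)) ∧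
    v = vonNeumann (∑ a, (p a : ℂ) • tensorPower Φ n (ρ a))
      - ∑ a, p a * vonNeumann (tensorPower Φ n (ρ a))}

/-- The Holevo capacity of the `n`-fold tensor power. -/
def holevo (Φ : Matrix (Fin 2) (Fin 2) ℂ → Matrix (Fin 2) (Fin 2) ℂ) (n : ℕ) : ℝ :=
  sSup (holevoValues Φ n)

/-- The unassisted classical capacity `sup_{n ≥ 1} χ(Φ^{⊗ n}) / n`. -/
def capacity (Φ : Matrix (Fin 2) (Fin 2) ℂ → Matrix (Fin 2) (Fin 2) ℂ) : ℝ :=
  ⨆ n : ℕ, holevo Φ (n + 1) / (n + 1 : ℕ)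

/-- `max_{q ∈ [0,1]} [h(t) - h((1 + √((1-2t)² + 4(1-γ)q(1-q)))/2)]` in bits, `t = (1-γ)q + γν`. -/
def capValue (γ ν : ℝ) : ℝ :=
  sSup ((fun q : ℝ =>
    (Real.binEntropy ((1 - γ) * q + γ * ν) -
      Real.binEntropy ((1 + Real.sqrt ((1 - 2 * ((1 - γ) * q + γ * ν)) ^ 2
        + 4 * (1 - γ) * q * (1 - q))) / 2)) / Real.log 2) '' Set.Icc 0 1)

end

end Vale.Agent.P358
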