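import Vale.Agent.P358.Defs
import Mathlib.LinearAlgebra.Matrix.SchurComplement
import Mathlib.Analysis.Matrix.PosDef
import Mathlib.Analysis.Convex.Jensen
import Mathlib.Analysis.Calculus.Deriv.MeanValue

/-!
# Entropy tools

Entropy in nats, compared through the determinants `det (1 + t X)`.
-/

namespace Vale.Agent.P358

open scoped ComplexOrder
open Matrix Real

noncomputable section

variable {ι κ : Type*} [Fintype ι] [DecidableEq ι] [Fintype κ] [DecidableEq κ]

/-- Entropy in nats. -/
def ent (X : Matrix ι ι ℂ) : ℝ :=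
  if h : X.IsHermitian then ∑ i, negMulLog (h.eigenvalues i) else 0

/-- `log |det (1 + t X)|`. -/
def ldet (X : Matrix ι ι ℂ) (t : ℝ) : ℝ := Real.log ‖(1 + (t : ℂ) • X).det‖

lemma vonNeumann_eq (X : Matrix ι ι ℂ) : vonNeumann X = ent X / Real.log 2 := by
  unfold vonNeumann ent
  split
  · rw [Finset.sum_div]
    refine Finset.sum_congr rfl fun i _ => ?_
    simp [negMulLog, Real.logb]
    ring
  · simp

/-- Weighted lists with balanced sums: comparing `log (1 + t x)` compares entropies. -/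
theorem entropy_list_nonneg {β : Type*} [Fintype β] (w x : β → ℝ) (hx : ∀ b, 0 ≤ x b)
    (hsum : ∑ b, w b * x b = 0) (h : ∀ t > 0, 0 ≤ ∑ b, w b * Real.log (1 + t * x b)) :
    0 ≤ ∑ b, w b * negMulLog (x b) := by
  set H : ℝ → ℝ := fun s => ∑ b, w b * (negMulLog s - negMulLog (s + x b)) with hH
  have hcont : ContinuousOn H (Set.Ici 0) := by
    apply Continuous.continuousOn
    refine continuous_finsetSum _ fun b _ => continuous_const.mul ?_
    exact continuous_negMulLog.sub (continuous_negMulLog.comp (continuous_id.add continuous_const))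
  have hder : ∀ s, 0 < s → HasDerivAt H (∑ b, w b * Real.log (1 + s⁻¹ * x b)) s := by
    intro s hs
    refine HasDerivAt.fun_sum fun b _ => HasDerivAt.const_mul (w b) ?_
    have h1 := hasDerivAt_negMulLog hs.ne'
    have hne : s + x b ≠ 0 := by linarith [hx b]
    have h2 := (hasDerivAt_negMulLog hne).comp s ((hasDerivAt_id s).add_const (x b))
    refine (h1.sub h2).congr_deriv ?_
    rw [show 1 + s⁻¹ * x b = (s + x b) / s by field_simp, Real.log_div hne hs.ne']
    ring
  have hmono : MonotoneOn H (Set.Ici 0) := by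
    refine monotoneOn_of_deriv_nonneg (convex_Ici 0) hcont ?_ ?_
    · intro s hs
      rw [interior_Ici] at hs
      exact (hder s hs).differentiableAt.differentiableWithinAt
    · intro s hs
      rw [interior_Ici] at hs
      rw [(hder s hs).deriv]
      exact h _ (inv_pos.mpr hs)
  have hb : ∀ T, 0 < T → H T ≤ (∑ b, |w b| * x b ^ 2) / T := by
    intro T hT
    have e : H T = ∑ b, w b * ((T + x b) * Real.log (1 + x b / T) - x b) := by
      have e1 : ∀ b, w b * (negMulLog T - negMulLog (T + x b))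
          = w b * ((T + x b) * Real.log (1 + x b / T) - x b) + (Real.log T + 1) * (w b * x b) := by
        intro b
        have hne : T + x b ≠ 0 := by linarith [hx b]
        rw [show 1 + x b / T = (T + x b) / T by field_simp, Real.log_div hne hT.ne']
        simp only [negMulLog]
        ring
      simp only [hH, e1, Finset.sum_add_distrib, ← Finset.mul_sum, hsum, mul_zero, add_zero]
    rw [e, Finset.sum_div]
    refine Finset.sum_le_sum fun b _ => ?_
    have hy : 0 ≤ x b / T := div_nonneg (hx b) hT.le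
    have hpos : 0 < 1 + x b / T := by linarith
    have up := mul_le_mul_of_nonneg_left (Real.log_le_sub_one_of_pos hpos)
      (by linarith [hx b] : (0 : ℝ) ≤ T + x b)
    have lo := mul_le_mul_of_nonneg_left (Real.one_sub_inv_le_log_of_pos hpos)
      (by linarith [hx b] : (0 : ℝ) ≤ T + x b)
    have e2 : (T + x b) * (1 - (1 + x b / T)⁻¹) = x b := by
      have : T + x b ≠ 0 := by linarith [hx b]
      field_simp
      ring
    have e3 : (T + x b) * (1 + x b / T - 1) = x b + x b ^ 2 / T := by field_simp; ring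
    rw [e2] at lo
    rw [e3] at up
    rw [mul_div_assoc]
    calc w b * ((T + x b) * Real.log (1 + x b / T) - x b)
        ≤ |w b| * ((T + x b) * Real.log (1 + x b / T) - x b) :=
          mul_le_mul_of_nonneg_right (le_abs_self _) (by linarith)
      _ ≤ |w b| * (x b ^ 2 / T) := mul_le_mul_of_nonneg_left (by linarith) (abs_nonneg _)
  set C := ∑ b, |w b| * x b ^ 2 with hC
  have h0 : H 0 ≤ 0 := by
    by_contra hpos
    push Not at hpos
    have hC0 : 0 ≤ C := Finset.sum_nonneg fun b _ => by positivity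
    have hT : 0 < 2 * C / H 0 + 1 := by positivity
    have h1 := (hmono (Set.self_mem_Ici) (Set.mem_Ici.mpr hT.le) hT.le).trans (hb _ hT)
    rw [le_div_iff₀ hT, mul_add, mul_one, mul_div_cancel₀ _ hpos.ne'] at h1
    linarith
  have : H 0 = -∑ b, w b * negMulLog (x b) := by
    simp [hH]
  linarith

lemma spectral (X : Matrix ι ι ℂ) (hX : X.IsHermitian) :
    X = (hX.eigenvectorUnitary : Matrix ι ι ℂ) * diagonal (fun i => (hX.eigenvalues i : ℂ)) *
      (hX.eigenvectorUnitary : Matrix ι ι ℂ)ᴴ := by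
  conv_lhs => rw [hX.spectral_theorem]
  rfl

lemma det_one_add_conj (U : Matrix ι κ ℂ) (hU : Uᴴ * U = 1) (X : Matrix κ κ ℂ) (c : ℂ) :
    (1 + c • (U * X * Uᴴ)).det = (1 + c • X).det := by
  rw [show c • (U * X * Uᴴ) = U * ((c • X) * Uᴴ) by
    simp [Matrix.mul_assoc, Matrix.mul_smul], Matrix.det_one_add_mul_comm, Matrix.mul_assoc, hU,
    Matrix.mul_one]

lemma det_one_add_eq_prod {X : Matrix ι ι ℂ} (hX : X.IsHermitian) (c : ℂ) :
    (1 + c • X).det = ∏ i, (1 + c * (hX.eigenvalues i : ℂ)) := by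
  conv_lhs => rw [spectral X hX]
  rw [det_one_add_conj _ (Matrix.UnitaryGroup.star_mul_self hX.eigenvectorUnitary),
    ← Matrix.diagonal_smul, ← Matrix.diagonal_one, Matrix.diagonal_add, Matrix.det_diagonal]
  simp

lemma ldet_eq_sum {X : Matrix ι ι ℂ} (hX : X.PosSemidef) {t : ℝ} (ht : 0 ≤ t) :
    ldet X t = ∑ i, Real.log (1 + t * hX.1.eigenvalues i) := by
  rw [ldet, det_one_add_eq_prod hX.1, norm_prod]
  have hpos : ∀ i, 0 < 1 + t * hX.1.eigenvalues i := fun i => by
    have := hX.eigenvalues_nonneg i; positivity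
  rw [Finset.prod_congr rfl fun i _ => (show ‖(1 : ℂ) + (t : ℂ) * (hX.1.eigenvalues i : ℂ)‖
    = 1 + t * hX.1.eigenvalues i by
      rw [← Complex.ofReal_mul, ← Complex.ofReal_one, ← Complex.ofReal_add, Complex.norm_real,
        Real.norm_of_nonneg (hpos i).le]), Real.log_prod fun i _ => (hpos i).ne']

lemma trace_re_eq_sum {X : Matrix ι ι ℂ} (hX : X.PosSemidef) :
    X.trace.re = ∑ i, hX.1.eigenvalues i := by
  rw [hX.1.trace_eq_sum_eigenvalues]; simp

lemma ent_eq {X : Matrix ι ι ℂ} (hX : X.PosSemidef) :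
    ent X = ∑ i, negMulLog (hX.1.eigenvalues i) := by
  rw [ent, dif_pos hX.1]

lemma psd_factor {X : Matrix ι ι ℂ} (hX : X.PosSemidef) : ∃ B : Matrix ι ι ℂ, X = Bᴴ * B := by
  refine ⟨diagonal (fun i => (Real.sqrt (hX.1.eigenvalues i) : ℂ)) *
    (hX.1.eigenvectorUnitary : Matrix ι ι ℂ)ᴴ, ?_⟩
  conv_lhs => rw [spectral X hX.1]
  rw [Matrix.conjTranspose_mul, Matrix.conjTranspose_conjTranspose,
    Matrix.diagonal_conjTranspose, Matrix.mul_assoc, Matrix.mul_assoc]
  congr 1
  rw [← Matrix.mul_assoc (diagonal _) (diagonal _), Matrix.diagonal_mul_diagonal]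
  congr 2
  funext i
  simp [← Complex.ofReal_mul, Real.mul_self_sqrt (hX.eigenvalues_nonneg i)]

/-- Entropy from a list with the same determinants. -/
theorem ent_eq_of_list {β : Type*} [Fintype β] {X : Matrix ι ι ℂ} (hX : X.PosSemidef) (y : β → ℝ)
    (hy : ∀ b, 0 ≤ y b) (htr : X.trace.re = ∑ b, y b)
    (hdet : ∀ t > 0, ldet X t = ∑ b, Real.log (1 + t * y b)) :
    ent X = ∑ b, negMulLog (y b) := by
  have hx : ∀ b : ι ⊕ β, 0 ≤ Sum.elim hX.1.eigenvalues y b := by
    rintro (i | b)
    exacts [hX.eigenvalues_nonneg i, hy b]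
  have key : ∀ e : ℝ, 0 ≤ e * (ent X - ∑ b, negMulLog (y b)) := by
    intro e
    have := entropy_list_nonneg (Sum.elim (fun _ => e) (fun _ => -e))
      (Sum.elim hX.1.eigenvalues y) hx
      (by simp [Fintype.sum_sum_type, ← Finset.mul_sum, ← trace_re_eq_sum hX, htr])
      (fun t ht => le_of_eq (by
        simp [Fintype.sum_sum_type, ← Finset.mul_sum, ← ldet_eq_sum hX ht.le, hdet t ht]))
    simpa [Fintype.sum_sum_type, ← Finset.mul_sum, ent_eq hX, mul_sub, ← sub_eq_add_neg] using this
  linarith [key 1, key (-1)]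

theorem ent_congr {X : Matrix ι ι ℂ} {Y : Matrix κ κ ℂ} (hX : X.PosSemidef) (hY : Y.PosSemidef)
    (htr : X.trace = Y.trace) (hdet : ∀ t : ℝ, (1 + (t : ℂ) • X).det = (1 + (t : ℂ) • Y).det) :
    ent X = ent Y := by
  rw [ent_eq hY]
  refine ent_eq_of_list hX _ hY.eigenvalues_nonneg (by rw [htr, trace_re_eq_sum hY]) fun t ht => ?_
  rw [← ldet_eq_sum hY ht.le, ldet, ldet, hdet t]

lemma ent_conj {X : Matrix κ κ ℂ} (hX : X.PosSemidef) (U : Matrix ι κ ℂ) (hU : Uᴴ * U = 1) :
    ent (U * X * Uᴴ) = ent X :=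
  ent_congr (hX.mul_mul_conjTranspose_same U) hX
    (by rw [Matrix.trace_mul_comm, ← Matrix.mul_assoc, hU, Matrix.one_mul])
    (fun t => det_one_add_conj U hU X _)

lemma ent_mul_comm (A : Matrix ι κ ℂ) : ent (A * Aᴴ) = ent (Aᴴ * A) := by
  refine ent_congr (Matrix.posSemidef_self_mul_conjTranspose A)
    (Matrix.posSemidef_conjTranspose_mul_self A) (Matrix.trace_mul_comm _ _) fun t => ?_
  rw [← Matrix.smul_mul, Matrix.det_one_add_mul_comm, Matrix.mul_smul]

lemma ent_diagonal (y : ι → ℝ) (hy : ∀ i, 0 ≤ y i) :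
    ent (diagonal fun i => (y i : ℂ)) = ∑ i, negMulLog (y i) := by
  refine ent_eq_of_list ?_ y hy (by simp [Matrix.trace]) fun t ht => ?_
  · exact Matrix.posSemidef_diagonal_iff.mpr fun i => by simpa using hy i
  · rw [ldet, ← Matrix.diagonal_smul, ← Matrix.diagonal_one, Matrix.diagonal_add,
      Matrix.det_diagonal, norm_prod, Real.log_prod]
    · refine Finset.sum_congr rfl fun i _ => ?_
      simp only [Pi.smul_apply, smul_eq_mul]
      rw [← Complex.ofReal_mul, ← Complex.ofReal_one, ← Complex.ofReal_add, Complex.norm_real,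
        Real.norm_of_nonneg (by have := hy i; positivity)]
    · intro i _
      simp only [Pi.smul_apply, smul_eq_mul]
      rw [← Complex.ofReal_mul, ← Complex.ofReal_one, ← Complex.ofReal_add, Complex.norm_real,
        Real.norm_of_nonneg (by have := hy i; positivity)]
      have := hy i; positivity

lemma ent_smul {X : Matrix ι ι ℂ} (hX : X.PosSemidef) {c : ℝ} (hc : 0 ≤ c) :
    ent ((c : ℂ) • X) = c * ent X + negMulLog c * X.trace.re := by
  rw [ent_eq_of_list (hX.smul (by exact_mod_cast hc)) (fun i => c * hX.1.eigenvalues i)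
    (fun i => mul_nonneg hc (hX.eigenvalues_nonneg i))
    (by simp [Matrix.trace_smul, trace_re_eq_sum hX, Finset.mul_sum])
    (fun t ht => by
      have : ldet ((c : ℂ) • X) t = ldet X (t * c) := by
        rw [ldet, ldet, smul_smul]; push_cast; rfl
      rw [this, ldet_eq_sum hX (by positivity)]; simp [mul_assoc])]
  simp only [negMulLog_mul, Finset.sum_add_distrib, ← Finset.mul_sum, ← Finset.sum_mul,
    ent_eq hX, trace_re_eq_sum hX]
  ring

lemma diag_eq_sum {X : Matrix ι ι ℂ} (hX : X.IsHermitian) (i : ι) :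
    (X i i).re =
      ∑ k, Complex.normSq ((hX.eigenvectorUnitary : Matrix ι ι ℂ) i k) * hX.eigenvalues k := by
  conv_lhs => rw [spectral X hX]
  rw [Matrix.mul_apply]
  simp only [Matrix.mul_diagonal, Matrix.conjTranspose_apply, Complex.re_sum]
  refine Finset.sum_congr rfl fun k _ => ?_
  simp [Complex.normSq_apply, Complex.mul_re, Complex.mul_im]
  ring

/-- The diagonal has at least the entropy of the spectrum. -/
lemma ent_le_diag {X : Matrix ι ι ℂ} (hX : X.PosSemidef) :
    ent X ≤ ∑ i, negMulLog (X i i).re := by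
  set U : Matrix ι ι ℂ := (hX.1.eigenvectorUnitary : Matrix ι ι ℂ) with hU
  have hU1 : Uᴴ * U = 1 := Matrix.UnitaryGroup.star_mul_self hX.1.eigenvectorUnitary
  have hU2 : U * Uᴴ = 1 := mul_eq_one_comm.mp hU1
  have row : ∀ i, ∑ k, Complex.normSq (U i k) = 1 := by
    intro i
    have := congrArg Complex.re (congrFun (congrFun hU2 i) i)
    simpa [Matrix.mul_apply, Complex.normSq_apply] using this
  have col : ∀ k, ∑ i, Complex.normSq (U i k) = 1 := by
    intro k
    have := congrArg Complex.re (congrFun (congrFun hU1 k) k)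
    simpa [Matrix.mul_apply, Complex.normSq_apply] using this
  calc ent X = ∑ k, (∑ i, Complex.normSq (U i k)) * negMulLog (hX.1.eigenvalues k) := by
        simp [ent_eq hX, col]
    _ = ∑ i, ∑ k, Complex.normSq (U i k) • negMulLog (hX.1.eigenvalues k) := by
        rw [Finset.sum_comm]; simp [Finset.sum_mul]
    _ ≤ ∑ i, negMulLog (∑ k, Complex.normSq (U i k) • hX.1.eigenvalues k) :=
        Finset.sum_le_sum fun i _ => concaveOn_negMulLog.le_map_sum
          (fun k _ => Complex.normSq_nonneg _) (row i) fun k _ => hX.eigenvalues_nonneg k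
    _ = ∑ i, negMulLog (X i i).re := by simp [diag_eq_sum hX.1, hU]

/-- Concavity of the entropy. -/
lemma ent_concave {β : Type*} [Fintype β] (p : β → ℝ) (X : β → Matrix ι ι ℂ)
    (hp : ∀ b, 0 ≤ p b) (hp1 : ∑ b, p b = 1) (hX : ∀ b, (X b).PosSemidef) :
    ∑ b, p b * ent (X b) ≤ ent (∑ b, (p b : ℂ) • X b) := by
  have hM : (∑ b, (p b : ℂ) • X b).PosSemidef :=
    Matrix.posSemidef_sum _ fun b _ => (hX b).smul (by exact_mod_cast hp b)
  set U : Matrix ι ι ℂ := (hM.1.eigenvectorUnitary : Matrix ι ι ℂ) with hU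
  have hU1 : Uᴴ * U = 1 := Matrix.UnitaryGroup.star_mul_self hM.1.eigenvectorUnitary
  have hU2 : (Uᴴ)ᴴ * Uᴴ = 1 := by
    rw [Matrix.conjTranspose_conjTranspose]; exact mul_eq_one_comm.mp hU1
  set Y : β → Matrix ι ι ℂ := fun b => Uᴴ * X b * U with hYdef
  have hY : ∀ b, (Y b).PosSemidef := fun b => (hX b).conjTranspose_mul_mul_same U
  have hD : ∑ b, (p b : ℂ) • Y b = diagonal fun i => (hM.1.eigenvalues i : ℂ) := by
    have h1 : ∑ b, (p b : ℂ) • Y b = Uᴴ * (∑ b, (p b : ℂ) • X b) * U := by
      simp [hYdef, Matrix.mul_sum, Matrix.sum_mul]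
    rw [h1]
    conv_lhs => rw [spectral _ hM.1]
    rw [← hU]
    simp only [← Matrix.mul_assoc, hU1, Matrix.one_mul]
    rw [Matrix.mul_assoc, hU1, Matrix.mul_one]
  calc ∑ b, p b * ent (X b) = ∑ b, p b * ent (Y b) := by
        refine Finset.sum_congr rfl fun b _ => ?_
        have := ent_conj (hX b) Uᴴ hU2
        rw [Matrix.conjTranspose_conjTranspose] at this
        rw [← this]
    _ ≤ ∑ b, p b * ∑ i, negMulLog (Y b i i).re :=
        Finset.sum_le_sum fun b _ => mul_le_mul_of_nonneg_left (ent_le_diag (hY b)) (hp b)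
    _ = ∑ i, ∑ b, p b • negMulLog (Y b i i).re := by
        rw [Finset.sum_comm]; simp [Finset.mul_sum]
    _ ≤ ∑ i, negMulLog (∑ b, p b • (Y b i i).re) :=
        Finset.sum_le_sum fun i _ => concaveOn_negMulLog.le_map_sum (fun b _ => hp b) hp1
          fun b _ => (Complex.nonneg_iff.mp ((hY b).diag_nonneg (i := i))).1
    _ = ent (∑ b, (p b : ℂ) • X b) := by
        rw [ent_eq hM]
        refine Finset.sum_congr rfl fun i _ => congrArg negMulLog ?_
        have := congrArg Complex.re (congrFun (congrFun hD i) i)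
        simpa [Matrix.sum_apply] using this

end

end Vale.Agent.P358
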