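import Vale.Agent.P358.Block

/-!
# One step of the generalized amplitude damping recursion
-/

namespace Vale.Agent.P358

open scoped ComplexOrder
open Matrix Real

noncomputable section

variable {ι κ : Type*} [Fintype ι] [DecidableEq ι] [Fintype κ] [DecidableEq κ]

/-- Excited-state output probability. -/
def tOut (γ ν q : ℝ) : ℝ := (1 - γ) * q + γ * ν

/-- Output determinant for the pure input with excited-state probability `q`. -/
def dOut (γ ν q : ℝ) : ℝ := tOut γ ν q * (1 - tOut γ ν q) - (1 - γ) * (q * (1 - q))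

/-- Output entropy for such an input, in nats. -/
def gEnt (γ ν q : ℝ) : ℝ := pairEnt 1 (dOut γ ν q)

/-- Weight of the first output block. -/
def outZero (γ ν u w : ℝ) : ℝ := (1 - γ * ν) * u + γ * (1 - ν) * w

/-- Weight of the second output block. -/
def outOne (γ ν u w : ℝ) : ℝ := γ * ν * u + (1 - γ * (1 - ν)) * w

/-- Homogeneous determinant. -/
def outDet (γ ν u w : ℝ) : ℝ := outZero γ ν u w * outOne γ ν u w - (1 - γ) * (u * w)

/-- The block state produced by the channel on the first qubit. -/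
def stepState (γ ν : ℝ) (A C : Matrix ι κ ℂ) : Matrix (ι ⊕ ι) (ι ⊕ ι) ℂ :=
  fromBlocks (((1 - γ * ν : ℝ) : ℂ) • (A * Aᴴ) + ((γ * (1 - ν) : ℝ) : ℂ) • (C * Cᴴ))
    ((√(1 - γ) : ℂ) • (A * Cᴴ)) ((√(1 - γ) : ℂ) • (C * Aᴴ))
    (((γ * ν : ℝ) : ℂ) • (A * Aᴴ) + ((1 - γ * (1 - ν) : ℝ) : ℂ) • (C * Cᴴ))

theorem step_le {γ ν : ℝ} (hγ : γ ∈ Set.Icc (0 : ℝ) 1) (hν : ν ∈ Set.Icc (0 : ℝ) 1)
    (hD : ∀ u w : ℝ, 0 < u → 0 < w → 0 < outDet γ ν u w) (A C : Matrix ι κ ℂ) :
    excess (A * Aᴴ) + excess (C * Cᴴ) +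
        pairEnt ((A * Aᴴ).trace.re + (C * Cᴴ).trace.re)
          (outDet γ ν (A * Aᴴ).trace.re (C * Cᴴ).trace.re) ≤ ent (stepState γ ν A C) := by
  set u := (A * Aᴴ).trace.re with hu
  set w := (C * Cᴴ).trace.re with hw
  have hu0 : 0 ≤ u := (Complex.nonneg_iff.mp (posSemidef_self_mul_conjTranspose A).trace_nonneg).1
  have hw0 : 0 ≤ w := (Complex.nonneg_iff.mp (posSemidef_self_mul_conjTranspose C).trace_nonneg).1
  obtain ⟨hγ0, hγ1⟩ := hγ
  obtain ⟨hν0, hν1⟩ := hν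
  set pA := 1 - γ * ν with hpA
  set pC := γ * (1 - ν) with hpC
  set rA := γ * ν with hrA
  set rC := 1 - γ * (1 - ν) with hrC
  set α := √(1 - γ) with hα
  have hpA0 : 0 ≤ pA := by nlinarith
  have hpC0 : 0 ≤ pC := by nlinarith
  have hrA0 : 0 ≤ rA := by nlinarith
  have hrC0 : 0 ≤ rC := by nlinarith
  have hα0 : 0 ≤ α := Real.sqrt_nonneg _
  have hα2 : α ^ 2 = pA * rC - pC * rA := by
    rw [hα, Real.sq_sqrt (by linarith), hpA, hrC, hpC, hrA]; ring
  have tr0 : ∀ {M : Matrix ι κ ℂ}, (M * Mᴴ).trace.re = 0 → M = 0 := by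
    intro M hM
    apply Matrix.trace_mul_conjTranspose_self_eq_zero_iff.mp
    exact Complex.ext (by simpa using hM)
      (Complex.nonneg_iff.mp (posSemidef_self_mul_conjTranspose M).trace_nonneg).2.symm
  rcases eq_or_lt_of_le hu0 with h | hup
  · have hA : A = 0 := tr0 (by linarith [h])
    have hp := piece A C le_rfl hpC0 hrC0
    rw [← hu, ← hw, ← h] at hp
    have e : stepState γ ν A C = fromBlocks (((0 : ℝ) : ℂ) • (A * Aᴴ) + (pC : ℂ) • (C * Cᴴ))
        (((√(0 : ℝ) * √rC : ℝ) : ℂ) • (A * Cᴴ)) (((√(0 : ℝ) * √rC : ℝ) : ℂ) • (C * Aᴴ))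
        ((rC : ℂ) • (C * Cᴴ)) := by
      simp [stepState, hA, hpC, hrC]
    rw [e]
    refine le_trans (le_of_eq ?_) hp
    have e2 : excess (A * Aᴴ) = 0 := by
      have h0 : (0 : Matrix ι ι ℂ) = ((0 : ℝ) : ℂ) • (0 : Matrix ι ι ℂ) := by simp
      rw [hA, Matrix.zero_mul, h0, excess_smul Matrix.PosSemidef.zero le_rfl, zero_mul]
    rw [e2, ← h]
    simp only [outDet, outZero, outOne]
    rw [show pC + rC = 1 by rw [hpC, hrC]; ring]
    ring_nf
    rw [hpC, hrC]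
    ring_nf
  rcases eq_or_lt_of_le hw0 with h | hwp
  · have hC : C = 0 := tr0 (by linarith [h])
    have hp := piece C A le_rfl hrA0 hpA0
    rw [← hu, ← hw, ← h] at hp
    have e : stepState γ ν A C = fromBlocks ((pA : ℂ) • (A * Aᴴ))
        (((√(0 : ℝ) * √pA : ℝ) : ℂ) • (A * Cᴴ)) (((√(0 : ℝ) * √pA : ℝ) : ℂ) • (C * Aᴴ))
        (((0 : ℝ) : ℂ) • (C * Cᴴ) + (rA : ℂ) • (A * Aᴴ)) := by
      simp [stepState, hC, hpA, hrA]
    rw [e, ent_swap (piece_psd C A le_rfl hrA0 hpA0)]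
    refine le_trans (le_of_eq ?_) hp
    have e2 : excess (C * Cᴴ) = 0 := by
      have h0 : (0 : Matrix ι ι ℂ) = ((0 : ℝ) : ℂ) • (0 : Matrix ι ι ℂ) := by simp
      rw [hC, Matrix.zero_mul, h0, excess_smul Matrix.PosSemidef.zero le_rfl, zero_mul]
    rw [e2, ← h]
    simp only [outDet, outZero, outOne]
    rw [show rA + pA = 1 by rw [hpA, hrA]; ring]
    ring_nf
    rw [hpA, hrA]
    ring_nf
  set t0 := pA * u + pC * w with ht0
  set t1 := rA * u + rC * w with ht1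
  set D := t0 * t1 - α ^ 2 * (u * w) with hDdef
  have hDeq : outDet γ ν u w = D := by
    rw [hDdef, hα, Real.sq_sqrt (by linarith), outDet, outZero, outOne, ht0, ht1, hpA, hpC, hrA,
      hrC]
  have hDpos : 0 < D := hDeq ▸ hD u w hup hwp
  have ht00 : 0 ≤ t0 := by rw [ht0]; positivity
  have ht10 : 0 ≤ t1 := by rw [ht1]; positivity
  have hprod : 0 < t0 * t1 := by
    have : 0 ≤ α ^ 2 * (u * w) := by positivity
    linarith
  have h0 : 0 < t0 := pos_of_mul_pos_left hprod ht10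
  have h1 : 0 < t1 := pos_of_mul_pos_right hprod ht00
  set θ := pC * t1 * w / D with hθ
  set θ' := rA * t0 * u / D with hθ'
  have hsum : θ + θ' = 1 := by
    rw [hθ, hθ', ← add_div, div_eq_one_iff_eq hDpos.ne', hDdef, ht0, ht1]
    linear_combination (u * w) * hα2
  set x := α ^ 2 * w / t1 with hx
  set y := D / (t1 * w) with hy
  set z := t1 / w with hz
  set x' := α ^ 2 * u / t0 with hx'
  set y' := D / (t0 * u) with hy'
  set z' := t0 / u with hz'
  have hx0 : 0 ≤ x := by positivity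
  have hy0 : 0 ≤ y := by positivity
  have hz0 : 0 ≤ z := by positivity
  have hx0' : 0 ≤ x' := by positivity
  have hy0' : 0 ≤ y' := by positivity
  have hz0' : 0 ≤ z' := by positivity
  have sxz : √x * √z = α := by
    rw [← Real.sqrt_mul hx0, show x * z = α ^ 2 by rw [hx, hz]; field_simp, Real.sqrt_sq hα0]
  have sxz' : √x' * √z' = α := by
    rw [← Real.sqrt_mul hx0', show x' * z' = α ^ 2 by rw [hx', hz']; field_simp, Real.sqrt_sq hα0]
  have c1 : θ * y = pC := by rw [hθ, hy]; field_simp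
  have c2 : θ' * y' = rA := by rw [hθ', hy']; field_simp
  have c3 : θ * x + θ' * z' = pA := by
    rw [hθ, hθ', hx, hz']
    field_simp
    rw [hDdef, ht0, ht1]
    linear_combination (pA * u + pC * w) * w * hα2
  have c4 : θ * z + θ' * x' = rC := by
    rw [hθ, hθ', hx', hz]
    field_simp
    rw [hDdef, ht0, ht1]
    linear_combination (rA * u + rC * w) * u * hα2
  set S₁ := fromBlocks ((x : ℂ) • (A * Aᴴ) + (y : ℂ) • (C * Cᴴ))
      (((√x * √z : ℝ) : ℂ) • (A * Cᴴ)) (((√x * √z : ℝ) : ℂ) • (C * Aᴴ))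
      ((z : ℂ) • (C * Cᴴ)) with hS₁
  set T₂ := fromBlocks ((x' : ℂ) • (C * Cᴴ) + (y' : ℂ) • (A * Aᴴ))
      (((√x' * √z' : ℝ) : ℂ) • (C * Aᴴ)) (((√x' * √z' : ℝ) : ℂ) • (A * Cᴴ))
      ((z' : ℂ) • (A * Aᴴ)) with hT₂
  set S₂ := fromBlocks ((z' : ℂ) • (A * Aᴴ))
      (((√x' * √z' : ℝ) : ℂ) • (A * Cᴴ)) (((√x' * √z' : ℝ) : ℂ) • (C * Aᴴ))
      ((x' : ℂ) • (C * Cᴴ) + (y' : ℂ) • (A * Aᴴ)) with hS₂
  have hS₁p : S₁.PosSemidef := piece_psd A C hx0 hy0 hz0
  have hT₂p : T₂.PosSemidef := piece_psd C A hx0' hy0' hz0'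
  have hS₂p : S₂.PosSemidef := by
    have := hT₂p.mul_mul_conjTranspose_same
      (fromBlocks 0 (1 : Matrix ι ι ℂ) (1 : Matrix ι ι ℂ) 0)
    simpa [hT₂, hS₂, fromBlocks_conjTranspose, fromBlocks_multiply] using this
  have hstep : stepState γ ν A C =
      fromBlocks ((pA : ℂ) • (A * Aᴴ) + (pC : ℂ) • (C * Cᴴ))
        ((α : ℂ) • (A * Cᴴ)) ((α : ℂ) • (C * Aᴴ))
        ((rA : ℂ) • (A * Aᴴ) + (rC : ℂ) • (C * Cᴴ)) := rfl
  have hσ : stepState γ ν A C = ∑ b, ((![θ, θ'] b : ℝ) : ℂ) • ![S₁, S₂] b := by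
    rw [Fin.sum_univ_two]
    simp only [Matrix.cons_val_zero, Matrix.cons_val_one, hS₁, hS₂, sxz, sxz', fromBlocks_smul,
      fromBlocks_add, hstep, smul_add, smul_smul,
      ← Complex.ofReal_mul]
    have e : ∀ M : Matrix ι ι ℂ,
        ((θ * α : ℝ) : ℂ) • M + ((θ' * α : ℝ) : ℂ) • M = (α : ℂ) • M := by
      intro M; rw [← add_smul, ← Complex.ofReal_add, ← add_mul, hsum, one_mul]
    rw [e, e, ← c1, ← c2, ← c3, ← c4]
    simp only [Complex.ofReal_add, Complex.ofReal_mul, add_smul]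
    congr 1 <;> abel
  have hθ0 : 0 ≤ θ := by positivity
  have hθ0' : 0 ≤ θ' := by positivity
  have hcc := ent_concave ![θ, θ'] ![S₁, S₂] (by intro b; fin_cases b <;> simp [hθ0, hθ0'])
    (by simp [Fin.sum_univ_two, hsum]) (by intro b; fin_cases b <;> simp [hS₁p, hS₂p])
  rw [← hσ, Fin.sum_univ_two] at hcc
  simp only [Matrix.cons_val_zero, Matrix.cons_val_one] at hcc
  have p1 := piece A C hx0 hy0 hz0
  have p2 := piece C A hx0' hy0' hz0'
  rw [← hS₁, ← hu, ← hw] at p1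
  rw [← hT₂, ← hu, ← hw, show ent T₂ = ent S₂ from (ent_swap hT₂p).symm] at p2
  have a1 : x * u + y * w + z * w = u + w := by
    rw [hx, hy, hz]; field_simp
    rw [hDdef, ht0, ht1, hpA, hpC, hrA, hrC]; ring
  have a2 : x' * w + y' * u + z' * u = u + w := by
    rw [hx', hy', hz']; field_simp
    rw [hDdef, ht0, ht1, hpA, hpC, hrA, hrC]; ring
  have b1 : y * w * (z * w) = D := by rw [hy, hz]; field_simp
  have b2 : y' * u * (z' * u) = D := by rw [hy', hz']; field_simp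
  rw [a1, b1] at p1
  rw [a2, b2] at p2
  rw [hDeq]
  have e1 : θ * x + θ' * (y' + z') = 1 := by
    rw [mul_add, c2, hpA] at *; linarith
  have e2 : θ * (y + z) + θ' * x' = 1 := by
    rw [mul_add, c1, hpC] at *; linarith
  have m1 := mul_le_mul_of_nonneg_left p1 hθ0
  have m2 := mul_le_mul_of_nonneg_left p2 hθ0'
  linear_combination hcc + m1 + m2 - excess (A * Aᴴ) * e1 - excess (C * Cᴴ) * e2
    - pairEnt (u + w) D * hsum

end

end Vale.Agent.P358
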